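import Crest.Agent.H0170.RatPrim

/-! Computably approximable real-valued functions. -/

set_option autoImplicit false
set_option linter.unusedVariables false

namespace Crest.Agent.H0170

open scoped ContDiff

/-- `f` is approximable by a primitive recursive family of rationals -/
def CA {α : Type} [Primcodable α] (f : α → ℝ) : Prop :=
  ∃ E : α → ℕ → ℚ, Primrec₂ E ∧ ∀ a n, |f a - (E a n : ℝ)| ≤ 1 / ((n : ℝ) + 1)

section
variable {α β : Type} [Primcodable α] [Primcodable β]

lemma CA.of_lim {f : α → ℝ} (g : α → ℕ → ℚ) (hg : Primrec₂ g) (C : α → ℕ) (hC : Primrec C)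
    (h : ∀ a N, |f a - (g a N : ℝ)| ≤ (C a : ℝ) / ((N : ℝ) + 1)) : CA f := by
  refine ⟨fun a n => g a (C a * (n + 1)), ?_, fun a n => ?_⟩
  · exact (hg.comp Primrec.fst (Primrec.nat_mul.comp (hC.comp Primrec.fst)
      (Primrec.succ.comp Primrec.snd))).to₂
  · refine (h a _).trans ?_
    push_cast
    rw [div_le_div_iff₀ (by positivity) (by positivity)]
    nlinarith

lemma CA.rat {g : α → ℚ} (hg : Primrec g) : CA (fun a => (g a : ℝ)) :=
  ⟨fun a _ => g a, (hg.comp Primrec.fst).to₂, fun a n => by simp; positivity⟩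

lemma CA.comp {f : β → ℝ} (hf : CA f) {h : α → β} (hh : Primrec h) : CA (fun a => f (h a)) := by
  obtain ⟨E, hE, hEf⟩ := hf
  exact ⟨fun a n => E (h a) n, (hE.comp (hh.comp Primrec.fst) Primrec.snd).to₂,
    fun a n => hEf _ _⟩

lemma CA.add {f g : α → ℝ} (hf : CA f) (hg : CA g) : CA (fun a => f a + g a) := by
  obtain ⟨E, hE, hEf⟩ := hf
  obtain ⟨F, hF, hFg⟩ := hg
  refine CA.of_lim (fun a n => E a n + F a n) (primrec_add hE hF).to₂ (fun _ => 2)
    (Primrec.const 2) fun a N => ?_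
  have h1 := hEf a N
  have h2 := hFg a N
  push_cast
  have : f a + g a - ((E a N : ℝ) + F a N) = (f a - E a N) + (g a - F a N) := by ring
  rw [this]
  refine (abs_add_le _ _).trans ?_
  have : (2 : ℝ) / (N + 1) = 1 / (N + 1) + 1 / (N + 1) := by ring
  linarith

lemma CA.neg {f : α → ℝ} (hf : CA f) : CA (fun a => - f a) := by
  obtain ⟨E, hE, hEf⟩ := hf
  refine ⟨fun a n => - E a n, (primrec_neg hE).to₂, fun a n => ?_⟩
  have h1 := hEf a n
  push_cast
  rw [← abs_neg]; convert h1 using 2; ring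

lemma CA.bound {f : α → ℝ} (hf : CA f) : ∃ C : α → ℕ, Primrec C ∧ ∀ a, |f a| ≤ C a := by
  obtain ⟨E, hE, hEf⟩ := hf
  refine ⟨fun a => (E a 0).num.natAbs + 1, Primrec.succ.comp
    (primrec_natAbs (hE.comp Primrec.id (Primrec.const 0))), fun a => ?_⟩
  have h1 := hEf a 0
  have h2 := abs_le_natAbs (E a 0)
  have h3 : |f a| ≤ |f a - E a 0| + |(E a 0 : ℝ)| := by
    have := abs_add_le (f a - E a 0) (E a 0)
    simpa using this
  push_cast at h1 ⊢
  simp only [Nat.cast_natAbs, Int.cast_abs] at h2 ⊢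
  linarith

lemma CA.mul {f g : α → ℝ} (hf : CA f) (hg : CA g) : CA (fun a => f a * g a) := by
  obtain ⟨C, hC, hCf⟩ := hf.bound
  obtain ⟨D, hD, hDg⟩ := hg.bound
  obtain ⟨E, hE, hEf⟩ := hf
  obtain ⟨F, hF, hFg⟩ := hg
  refine CA.of_lim (fun a n => E a n * F a n) (primrec_mul hE hF).to₂ (fun a => C a + D a + 1)
    (Primrec.succ.comp (Primrec.nat_add.comp hC hD)) fun a N => ?_
  have h1 := hEf a N
  have h2 := hFg a N
  have h3 := hCf a
  have h4 := hDg a
  push_cast
  have hN : (1 : ℝ) / (N + 1) ≤ 1 := by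
    rw [div_le_one (by positivity)]; linarith [(Nat.cast_nonneg N : (0 : ℝ) ≤ N)]
  have hF' : |(F a N : ℝ)| ≤ D a + 1 := by
    have := abs_sub (g a) (g a - F a N)
    simp only [sub_sub_cancel] at this
    linarith
  have : f a * g a - (E a N : ℝ) * F a N = f a * (g a - F a N) + (F a N) * (f a - E a N) := by
    ring
  rw [this]
  refine (abs_add_le _ _).trans ?_
  rw [abs_mul, abs_mul]
  have e1 : |f a| * |g a - F a N| ≤ C a * (1 / (N + 1)) :=
    mul_le_mul h3 h2 (abs_nonneg _) (Nat.cast_nonneg _)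
  have e2 : |(F a N : ℝ)| * |f a - E a N| ≤ (D a + 1) * (1 / (N + 1)) :=
    mul_le_mul hF' h1 (abs_nonneg _) (by positivity)
  have : ((C a : ℝ) + D a + 1) / (N + 1) = C a * (1 / (N + 1)) + (D a + 1) * (1 / (N + 1)) := by
    ring
  linarith

lemma CA.lip {F : ℝ → ℝ} (L : ℕ) (hL : ∀ x y, |F x - F y| ≤ L * |x - y|)
    (hF : CA (fun q : ℚ => F q)) {f : α → ℝ} (hf : CA f) : CA (fun a => F (f a)) := by
  obtain ⟨E, hE, hEf⟩ := hf
  obtain ⟨G, hG, hGF⟩ := hF
  refine CA.of_lim (fun a n => G (E a n) n) (hG.comp hE Primrec.snd).to₂ (fun _ => L + 1)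
    (Primrec.const _) fun a N => ?_
  have h1 := hEf a N
  have h2 := hGF (E a N) N
  have h3 := hL (f a) (E a N)
  have : F (f a) - (G (E a N) N : ℝ) = (F (f a) - F (E a N)) + (F (E a N) - G (E a N) N) := by
    ring
  rw [this]
  refine (abs_add_le _ _).trans ?_
  have e1 : (L : ℝ) * |f a - E a N| ≤ L * (1 / (N + 1)) :=
    mul_le_mul_of_nonneg_left h1 (Nat.cast_nonneg _)
  push_cast
  have : ((L : ℝ) + 1) / (N + 1) = L * (1 / (N + 1)) + 1 / (N + 1) := by ring
  linarith

end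

/-! ### logarithms of rationals -/

lemma primrec_harmonic : Primrec harmonic := by
  have h : Primrec (Nat.rec (motive := fun _ => ℚ) 0
      (fun n ih => ih + (((n + 1 : ℕ) : ℚ))⁻¹)) := by
    refine Primrec.nat_rec₁ 0 ?_
    exact (primrec_add Primrec.snd
      (primrec_inv (primrec_natCast (Primrec.succ.comp Primrec.fst)))).to₂
  refine h.of_eq fun n => ?_
  induction n with
  | zero => simp
  | succ n ih => rw [harmonic_succ, ← ih]

lemma harmonic_est (m : ℕ) (hm : 0 < m) :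
    Real.eulerMascheroniConstant ≤ (harmonic m : ℝ) - Real.log m ∧
    (harmonic m : ℝ) - Real.log m ≤ Real.eulerMascheroniConstant + 1 / m := by
  have h1 := Real.eulerMascheroniSeq_lt_eulerMascheroniConstant m
  have h2 := Real.eulerMascheroniConstant_lt_eulerMascheroniSeq' m
  simp only [Real.eulerMascheroniSeq, Real.eulerMascheroniSeq', if_neg hm.ne'] at h1 h2
  refine ⟨h2.le, ?_⟩
  have hm' : (0 : ℝ) < m := by exact_mod_cast hm
  have h3 : Real.log ((m : ℝ) + 1) - Real.log m ≤ 1 / m := by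
    rw [← Real.log_div (by positivity) hm'.ne']
    have := Real.log_le_sub_one_of_pos (x := ((m : ℝ) + 1) / m) (by positivity)
    have e : ((m : ℝ) + 1) / m - 1 = 1 / m := by field_simp; ring
    linarith
  linarith

lemma ca_log_nat {α : Type} [Primcodable α] (p : ℕ) (hp : 0 < p) :
    CA (fun _ : α => Real.log p) := by
  refine ⟨fun _ n => harmonic (p * (n + 1)) - harmonic (n + 1), ?_, fun _ n => ?_⟩
  · exact (primrec_sub
      (primrec_harmonic.comp (Primrec.nat_mul.comp (Primrec.const p)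
        (Primrec.succ.comp Primrec.snd)))
      (primrec_harmonic.comp (Primrec.succ.comp Primrec.snd))).to₂
  · obtain ⟨a1, a2⟩ := harmonic_est (p * (n + 1)) (by positivity)
    obtain ⟨b1, b2⟩ := harmonic_est (n + 1) (by positivity)
    have hp' : (1 : ℝ) ≤ p := by exact_mod_cast hp
    have hl : Real.log ((p * (n + 1) : ℕ) : ℝ) = Real.log p + Real.log ((n + 1 : ℕ) : ℝ) := by
      push_cast
      rw [Real.log_mul (by positivity) (by positivity)]
    rw [hl] at a1 a2
    have h3 : (1 : ℝ) / ((p * (n + 1) : ℕ) : ℝ) ≤ 1 / ((n : ℝ) + 1) := by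
      push_cast
      apply one_div_le_one_div_of_le (by positivity)
      nlinarith [(Nat.cast_nonneg n : (0 : ℝ) ≤ n)]
    have h4 : (1 : ℝ) / ((n + 1 : ℕ) : ℝ) = 1 / ((n : ℝ) + 1) := by push_cast; rfl
    rw [Rat.cast_sub, abs_le]
    constructor <;> linarith

lemma ca_log_rat {α : Type} [Primcodable α] (r : ℚ) (hr : 0 < r) :
    CA (fun _ : α => Real.log r) := by
  have hnum : 0 < r.num := Rat.num_pos.2 hr
  have h1 := ca_log_nat (α := α) r.num.toNat (by omega)
  have h2 := ca_log_nat (α := α) r.den r.den_pos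
  have h3 := h1.add h2.neg
  convert h3 using 2
  have e1 : (r : ℝ) = (r.num : ℝ) / r.den := by exact_mod_cast (Rat.num_div_den r).symm
  have e2 : ((r.num.toNat : ℕ) : ℝ) = (r.num : ℝ) := by
    have : ((r.num.toNat : ℕ) : ℤ) = r.num := by omega
    exact_mod_cast this
  have h4 : (0 : ℝ) < r.num := by exact_mod_cast hnum
  have h5 : (0 : ℝ) < r.den := by exact_mod_cast r.den_pos
  rw [e2, e1, Real.log_div h4.ne' h5.ne']
  ring

/-! ### the flat function -/

/-- `exp (1 - 1/x)` for positive `x`, and `0` otherwise. -/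
noncomputable def ft (x : ℝ) : ℝ := Real.exp 1 * expNegInvGlue x

lemma ft_smooth : ContDiff ℝ ∞ ft := contDiff_const.mul expNegInvGlue.contDiff

lemma ft_of_nonpos {x : ℝ} (hx : x ≤ 0) : ft x = 0 := by
  simp [ft, expNegInvGlue.zero_of_nonpos hx]

lemma ft_of_pos {x : ℝ} (hx : 0 < x) : ft x = Real.exp (1 - x⁻¹) := by
  simp [ft, expNegInvGlue, not_le.2 hx, sub_eq_add_neg, Real.exp_add]

lemma ft_nonneg (x : ℝ) : 0 ≤ ft x := mul_nonneg (Real.exp_pos _).le (expNegInvGlue.nonneg x)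

lemma ft_one : ft 1 = 1 := by rw [ft_of_pos one_pos]; simp

lemma one_le_ft {x : ℝ} (hx : 1 ≤ x) : 1 ≤ ft x := by
  rw [ft_of_pos (by linarith)]
  apply Real.one_le_exp
  have := inv_le_one_of_one_le₀ hx
  linarith

lemma ft_le_one {x : ℝ} (hx : x ≤ 1) : ft x ≤ 1 := by
  rcases le_or_gt x 0 with h | h
  · rw [ft_of_nonpos h]; exact zero_le_one
  · rw [ft_of_pos h, Real.exp_le_one_iff]
    have := (one_le_inv₀ h).2 hx
    linarith

lemma exp_approx (r : ℝ) (hr : r ≤ 1) (N : ℕ) (hN : 2 ≤ N) :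
    |Real.exp r - ((1 - r / N)⁻¹) ^ N| ≤ 9 * r ^ 2 / N := by
  have hN' : (2 : ℝ) ≤ N := by exact_mod_cast hN
  set u := r / N with hu
  have hu2 : u ≤ 1 / N := div_le_div_of_nonneg_right hr (by linarith)
  have hu3 : u ≤ 1 / 2 := hu2.trans (one_div_le_one_div_of_le (by norm_num) hN')
  have h1u : 0 < 1 - u := by linarith
  set a := (1 - u)⁻¹ with ha
  have hapos : 0 < a := inv_pos.2 h1u
  have hau : a * (1 - u) = 1 := inv_mul_cancel₀ h1u.ne'
  set b := Real.exp u with hb
  have hbpos : 0 < b := Real.exp_pos _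
  have hba : b ≤ a := by
    have h1 : 1 - u ≤ Real.exp (-u) := by linarith [Real.add_one_le_exp (-u)]
    rw [Real.exp_neg, ← hb] at h1
    rw [ha, le_inv_comm₀ hbpos h1u]
    exact h1
  have hab : a - b ≤ u ^ 2 * a := by
    have h1 : u + 1 ≤ b := Real.add_one_le_exp u
    nlinarith
  have hr' : Real.exp r = b ^ N := by
    rw [hb, ← Real.exp_nat_mul, hu]; congr 1; field_simp
  have haexp : a ≤ Real.exp (2 / N) := by
    rcases le_or_gt u 0 with h | h
    · have : a ≤ 1 := by rw [ha]; exact inv_le_one_of_one_le₀ (by linarith)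
      exact this.trans (Real.one_le_exp (by positivity))
    · have h1 : a ≤ 1 + 2 * u := by nlinarith
      have h2 : 2 * u + 1 ≤ Real.exp (2 * u) := Real.add_one_le_exp _
      have h3 : Real.exp (2 * u) ≤ Real.exp (2 / N) := by
        apply Real.exp_le_exp.2
        have : (2 : ℝ) / N = 2 * (1 / N) := by ring
        linarith
      linarith
  have haN : a ^ N ≤ 9 := by
    have h1 : a ^ N ≤ Real.exp (2 / N) ^ N := pow_le_pow_left₀ hapos.le haexp N
    have h2 : Real.exp (2 / N) ^ N = Real.exp 1 ^ 2 := by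
      rw [← Real.exp_nat_mul, ← Real.exp_nat_mul]; congr 1; field_simp; norm_num
    have h3 : Real.exp 1 ≤ 3 := by linarith [Real.exp_one_lt_d9]
    have h4 : Real.exp 1 ^ 2 ≤ 3 ^ 2 := pow_le_pow_left₀ (Real.exp_pos _).le h3 2
    linarith
  rw [hr', abs_sub_comm]
  refine (abs_pow_sub_pow_le a b N).trans ?_
  rw [abs_of_nonneg (by linarith : 0 ≤ a - b), abs_of_pos hapos, abs_of_pos hbpos,
    max_eq_left hba]
  obtain ⟨M, rfl⟩ : ∃ M, N = M + 1 := ⟨N - 1, by omega⟩
  simp only [Nat.add_sub_cancel]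
  have h5 : (a - b) * ((M + 1 : ℕ) : ℝ) * a ^ M ≤ (u ^ 2 * a) * ((M + 1 : ℕ) : ℝ) * a ^ M := by
    gcongr
  refine h5.trans ?_
  have h6 : (u ^ 2 * a) * ((M + 1 : ℕ) : ℝ) * a ^ M = r ^ 2 / ((M + 1 : ℕ) : ℝ) * a ^ (M + 1) := by
    rw [hu, pow_succ a M]; field_simp
  rw [h6]
  have h7 : 9 * r ^ 2 / ((M + 1 : ℕ) : ℝ) = r ^ 2 / ((M + 1 : ℕ) : ℝ) * 9 := by ring
  rw [h7]
  gcongr

lemma ca_ft : CA (fun q : ℚ => ft q) := by
  refine CA.of_lim
    (fun q N => if 0 < q then ((1 - (1 - q⁻¹) / ((N + 2 : ℕ) : ℚ))⁻¹) ^ (N + 2) else 0) ?_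
    (fun q => 9 * (q.den * q.den))
    (Primrec.nat_mul.comp (Primrec.const 9) (Primrec.nat_mul.comp primrec_den primrec_den)) ?_
  · have hN : Primrec fun x : ℚ × ℕ => x.2 + 2 := Primrec.nat_add.comp Primrec.snd (Primrec.const 2)
    refine Primrec.ite (c := fun x : ℚ × ℕ => 0 < x.1) (primrec_pos Primrec.fst) ?_
      (Primrec.const 0)
    exact primrec_pow (primrec_inv (primrec_sub (Primrec.const 1) (primrec_div
      (primrec_sub (Primrec.const 1) (primrec_inv Primrec.fst)) (primrec_natCast hN)))) hN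
  · intro q N
    by_cases hq : 0 < q
    · simp only [if_pos hq]
      have hq' : (0 : ℝ) < q := by exact_mod_cast hq
      rw [ft_of_pos hq']
      have hinv : (0 : ℝ) < (q : ℝ)⁻¹ := inv_pos.2 hq'
      have h1 := exp_approx (1 - (q : ℝ)⁻¹) (by linarith) (N + 2) (by omega)
      have hden : (1 : ℝ) ≤ q.den := by exact_mod_cast q.den_pos
      have hinv2 : (q : ℝ)⁻¹ ≤ q.den := by
        have e1 : (q : ℝ) = (q.num : ℝ) / q.den := by exact_mod_cast (Rat.num_div_den q).symm
        have hnum : (1 : ℝ) ≤ q.num := by exact_mod_cast Rat.num_pos.2 hq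
        rw [e1, inv_div]
        exact div_le_self (by linarith) hnum
      have hsq : (1 - (q : ℝ)⁻¹) ^ 2 ≤ q.den * q.den := by
        rw [← sq]
        apply sq_le_sq'
        · linarith
        · linarith
      push_cast at h1 ⊢
      refine h1.trans ?_
      rw [div_le_div_iff₀ (by positivity) (by positivity)]
      have hN : (0 : ℝ) ≤ N := Nat.cast_nonneg _
      nlinarith [sq_nonneg (1 - (q : ℝ)⁻¹)]
    · simp only [if_neg hq]
      have hq' : (q : ℝ) ≤ 0 := by exact_mod_cast not_lt.1 hq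
      rw [ft_of_nonpos hq']
      simp; positivity

/-- the functions `x⁻¹ ^ m * expNegInvGlue x` -/
noncomputable def gm (m : ℕ) (x : ℝ) : ℝ := x⁻¹ ^ m * expNegInvGlue x

lemma gm_smooth (m : ℕ) : ContDiff ℝ ∞ (gm m) := by
  have := expNegInvGlue.contDiff_polynomial_eval_inv_mul (n := ⊤) (Polynomial.X ^ m)
  have h2 : (fun x : ℝ => Polynomial.eval x⁻¹ (Polynomial.X ^ m : Polynomial ℝ) * expNegInvGlue x)
      = gm m := by funext x; simp [gm]
  rwa [h2] at this

lemma gm_deriv (m : ℕ) : deriv (gm m) = fun x => gm (m + 2) x - m * gm (m + 1) x := by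
  funext x
  have := expNegInvGlue.hasDerivAt_polynomial_eval_inv_mul (Polynomial.X ^ m) x
  have h2 : (fun x : ℝ => Polynomial.eval x⁻¹ (Polynomial.X ^ m : Polynomial ℝ) * expNegInvGlue x)
      = gm m := by funext x; simp [gm]
  rw [h2] at this
  rw [this.deriv]
  simp only [gm, Polynomial.derivative_X_pow, Polynomial.eval_mul, Polynomial.eval_pow,
    Polynomial.eval_X, Polynomial.eval_sub, Polynomial.eval_C]
  rcases m with _ | m
  · simp
  · simp only [Nat.add_sub_cancel]; ring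

lemma gm_bound (m : ℕ) (x : ℝ) : |gm m x| ≤ m.factorial := by
  rcases le_or_gt x 0 with h | h
  · simp [gm, expNegInvGlue.zero_of_nonpos h]
  · have hinv : 0 ≤ x⁻¹ := (inv_pos.2 h).le
    have h1 := Real.pow_div_factorial_le_exp x⁻¹ hinv m
    have hf : (0 : ℝ) < m.factorial := by exact_mod_cast m.factorial_pos
    rw [div_le_iff₀ hf] at h1
    simp only [gm, expNegInvGlue, not_le.2 h, if_false]
    rw [abs_of_nonneg (by positivity), Real.exp_neg, ← div_eq_mul_inv,
      div_le_iff₀ (Real.exp_pos _)]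
    linarith

lemma gm_iter_bound (k : ℕ) : ∀ (m : ℕ) (x : ℝ),
    |iteratedDeriv k (gm m) x| ≤ ((m + 2 * k + 1) ^ k * (m + 2 * k).factorial : ℕ) := by
  induction k with
  | zero => intro m x; simpa using gm_bound m x
  | succ k ih =>
    intro m x
    rw [iteratedDeriv_succ', gm_deriv]
    have h1 : ContDiff ℝ k (gm (m + 2)) := (gm_smooth _).of_le (by exact_mod_cast le_top)
    have h2 : ContDiff ℝ k (gm (m + 1)) := (gm_smooth _).of_le (by exact_mod_cast le_top)
    have e : iteratedDeriv k (fun x => gm (m + 2) x - m * gm (m + 1) x) x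
        = iteratedDeriv k (gm (m + 2)) x - m * iteratedDeriv k (gm (m + 1)) x := by
      rw [iteratedDeriv_fun_sub h1.contDiffAt (contDiff_const.mul h2).contDiffAt,
        iteratedDeriv_const_mul_field]
    rw [e]
    refine (abs_sub _ _).trans ?_
    rw [abs_mul, Nat.abs_cast]
    have a1 := ih (m + 2) x
    have a2 := ih (m + 1) x
    have b : ((m + 2 + 2 * k + 1) ^ k * (m + 2 + 2 * k).factorial : ℕ)
        + m * ((m + 1 + 2 * k + 1) ^ k * (m + 1 + 2 * k).factorial)
        ≤ (m + 2 * (k + 1) + 1) ^ (k + 1) * (m + 2 * (k + 1)).factorial := by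
      have e1 : m + 2 + 2 * k = m + 2 * (k + 1) := by ring
      rw [e1]
      have c1 : (m + 1 + 2 * k + 1) ^ k ≤ (m + 2 * (k + 1) + 1) ^ k :=
        Nat.pow_le_pow_left (by omega) k
      have c2 : (m + 1 + 2 * k).factorial ≤ (m + 2 * (k + 1)).factorial :=
        Nat.factorial_le (by omega)
      have c3 := Nat.mul_le_mul c1 c2
      have c4 := Nat.mul_le_mul_left m c3
      rw [pow_succ]
      set A := (m + 2 * (k + 1) + 1) ^ k
      set F := (m + 2 * (k + 1)).factorial
      have c5 : A * F + m * (A * F) = (m + 1) * (A * F) := by ring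
      have c6 : (m + 1) * (A * F) ≤ (m + 2 * (k + 1) + 1) * (A * F) :=
        Nat.mul_le_mul_right _ (by omega)
      have c7 : A * (m + 2 * (k + 1) + 1) * F = (m + 2 * (k + 1) + 1) * (A * F) := by ring
      omega
    have b' : (((m + 2 + 2 * k + 1) ^ k * (m + 2 + 2 * k).factorial : ℕ) : ℝ)
        + m * (((m + 1 + 2 * k + 1) ^ k * (m + 1 + 2 * k).factorial : ℕ) : ℝ)
        ≤ (((m + 2 * (k + 1) + 1) ^ (k + 1) * (m + 2 * (k + 1)).factorial : ℕ) : ℝ) := by
      exact_mod_cast b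
    have a3 := mul_le_mul_of_nonneg_left a2 (Nat.cast_nonneg m : (0 : ℝ) ≤ m)
    linarith

/-- bound for the derivatives of `ft` up to order `k` -/
def ftB (k : ℕ) : ℕ := 3 * (2 * k + 1) ^ (3 * k)

lemma primrec_ftB : Primrec ftB :=
  Primrec.nat_mul.comp (Primrec.const 3) (primrec_natPow Primrec.nat_double_succ
    (Primrec.nat_mul.comp (Primrec.const 3) Primrec.id))

lemma ft_iter_bound (k i : ℕ) (hi : i ≤ k) (x : ℝ) : ‖iteratedFDeriv ℝ i ft x‖ ≤ ftB k := by
  rw [norm_iteratedFDeriv_eq_norm_iteratedDeriv, Real.norm_eq_abs]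
  have e : ft = fun x => Real.exp 1 * gm 0 x := by funext x; simp [ft, gm]
  rw [e, iteratedDeriv_const_mul_field, abs_mul, abs_of_pos (Real.exp_pos _)]
  have h1 := gm_iter_bound i 0 x
  have h3 : Real.exp 1 ≤ 3 := by linarith [Real.exp_one_lt_d9]
  have h4 : (0 + 2 * i + 1) ^ i * (0 + 2 * i).factorial ≤ (2 * k + 1) ^ (3 * k) := by
    have c1 : (0 + 2 * i + 1) ^ i ≤ (2 * k + 1) ^ k :=
      (Nat.pow_le_pow_left (by omega) i).trans (Nat.pow_le_pow_right (by omega) hi)
    have c2 : (0 + 2 * i).factorial ≤ (2 * k + 1) ^ (2 * k) := by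
      refine (Nat.factorial_le (by omega : 0 + 2 * i ≤ 2 * k)).trans ?_
      exact (Nat.factorial_le_pow _).trans (Nat.pow_le_pow_left (by omega) _)
    have c3 : (2 * k + 1) ^ (3 * k) = (2 * k + 1) ^ k * (2 * k + 1) ^ (2 * k) := by
      rw [← pow_add]; congr 1; ring
    rw [c3]
    exact Nat.mul_le_mul c1 c2
  have h5 : (((0 + 2 * i + 1) ^ i * (0 + 2 * i).factorial : ℕ) : ℝ)
      ≤ (((2 * k + 1) ^ (3 * k) : ℕ) : ℝ) := by exact_mod_cast h4
  have h6 : (ftB k : ℝ) = 3 * (((2 * k + 1) ^ (3 * k) : ℕ) : ℝ) := by simp [ftB]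
  rw [h6]
  exact mul_le_mul h3 (h1.trans h5) (abs_nonneg _) (by norm_num)

lemma ft_lip (x y : ℝ) : |ft x - ft y| ≤ (ftB 1 : ℕ) * |x - y| := by
  have h := Convex.norm_image_sub_le_of_norm_fderiv_le (𝕜 := ℝ) (f := ft) (C := ftB 1)
    (s := Set.univ) (x := y) (y := x)
    (fun z _ => (ft_smooth.differentiable (by simp)).differentiableAt)
    (fun z _ => by rw [← norm_iteratedFDeriv_one]; exact ft_iter_bound 1 1 le_rfl z)
    convex_univ trivial trivial
  simpa using h

lemma CA.ft {α : Type} [Primcodable α] {f : α → ℝ} (hf : CA f) : CA (fun a => ft (f a)) :=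
  CA.lip _ ft_lip ca_ft hf

end Crest.Agent.H0170
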