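import Mathlib
import Crest.Prelude.Def_BoxFlow

/-! Global solutions for smooth compactly supported fields. -/

set_option autoImplicit false
set_option linter.unusedVariables false

namespace Crest.Agent.H0170

open scoped ContDiff NNReal
open Crest.AnalysisR.BoxFlow Set Filter Topology

lemma lip_slice {U : Field} {K : ℝ≥0} (hK : LipschitzWith K U) (t : ℝ) :
    LipschitzWith K (fun x => U (t, x)) := by
  have h : LipschitzWith 1 (fun x : Fin 3 → ℝ => ((t, x) : ℝ × (Fin 3 → ℝ))) :=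
    LipschitzWith.prodMk_left t
  have := hK.comp h
  rw [mul_one] at this
  exact this

theorem exists_solution {U : Field} (hU : ContDiff ℝ ∞ U) (hc : HasCompactSupport U)
    (h0 : ∀ p : ℝ × (Fin 3 → ℝ), p.1 ∉ Set.Icc (1 / 4 : ℝ) (3 / 4) → U p = 0) (x : Fin 3 → ℝ) :
    ∃ γ : ℝ → (Fin 3 → ℝ), γ 0 = x ∧ ∀ t, HasDerivAt γ (U (t, γ t)) t := by
  obtain ⟨K, hK⟩ := hU.lipschitzWith_of_hasCompactSupport hc (by simp)
  obtain ⟨L, hL⟩ := hU.continuous.bounded_above_of_compact_support hc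
  have hL0 : 0 ≤ L := (norm_nonneg _).trans (hL 0)
  have hPL : IsPicardLindelof (fun t x => U (t, x)) (tmin := 0) (tmax := 1) ⟨0, by simp⟩ x
      ⟨L, hL0⟩ 0 ⟨L, hL0⟩ K := by
    refine ⟨fun t _ => (lip_slice hK t).lipschitzOnWith, fun y _ => ?_, fun t _ y _ => hL _, ?_⟩
    · exact (hU.continuous.comp (by fun_prop)).continuousOn
    · simp
  obtain ⟨α, hα0, hα⟩ := hPL.exists_eq_forall_mem_Icc_hasDerivWithinAt₀
  simp only at hα0 hα
  have hcont : ContinuousOn α (Icc 0 1) := fun t ht => (hα t ht).continuousWithinAt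
  have hright : ∀ t ∈ Ico (0 : ℝ) 1, HasDerivWithinAt α (U (t, α t)) (Ici t) t := by
    intro t ht
    refine (hα t ⟨ht.1, ht.2.le⟩).mono_of_mem_nhdsWithin ?_
    exact Icc_mem_nhdsGE_of_mem ht
  have c1 : ∀ s ∈ Icc (0 : ℝ) (1 / 4), α s = α 0 := by
    refine constant_of_has_deriv_right_zero (hcont.mono (Icc_subset_Icc le_rfl (by norm_num))) ?_
    intro t ht
    have := hright t ⟨ht.1, by linarith [ht.2]⟩
    rwa [h0 (t, α t) (fun h => by linarith [h.1, ht.2])] at this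
  have c2 : ∀ s ∈ Icc (4 / 5 : ℝ) 1, α s = α (4 / 5) := by
    refine constant_of_has_deriv_right_zero (hcont.mono (Icc_subset_Icc (by norm_num) le_rfl)) ?_
    intro t ht
    have := hright t ⟨by linarith [ht.1], ht.2⟩
    rwa [h0 (t, α t) (fun h => by linarith [h.2, ht.1])] at this
  refine ⟨fun t => α (max 0 (min t 1)), by simpa using hα0, fun t => ?_⟩
  rcases lt_or_ge t (1 / 4) with h1 | h1
  · rw [h0 _ (fun h => by linarith [h.1])]
    refine (hasDerivAt_const t (α 0)).congr_of_eventuallyEq ?_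
    filter_upwards [Iio_mem_nhds h1] with s hs
    refine c1 _ ⟨le_max_left _ _, max_le (by norm_num) ((min_le_left _ _).trans (le_of_lt hs))⟩
  rcases lt_or_ge (4 / 5) t with h2 | h2
  · rw [h0 _ (fun h => by linarith [h.2])]
    refine (hasDerivAt_const t (α (4 / 5))).congr_of_eventuallyEq ?_
    filter_upwards [Ioi_mem_nhds h2] with s hs
    refine c2 _ ⟨le_max_of_le_right (le_min (le_of_lt hs) (by norm_num)),
      max_le (by norm_num) (min_le_right _ _)⟩
  · have ht : t ∈ Ioo (0 : ℝ) 1 := ⟨by linarith, by linarith⟩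
    have e : ∀ s ∈ Ioo (0 : ℝ) 1, max 0 (min s 1) = s := fun s hs => by
      rw [min_eq_left hs.2.le, max_eq_right hs.1.le]
    simp only [e t ht]
    have := (hα t ⟨ht.1.le, ht.2.le⟩).hasDerivAt (Icc_mem_nhds ht.1 ht.2)
    refine this.congr_of_eventuallyEq ?_
    filter_upwards [Ioo_mem_nhds ht.1 ht.2] with s hs
    rw [e s hs]

theorem exists_flow {U : Field} (hU : ContDiff ℝ ∞ U) (hc : HasCompactSupport U)
    (h0 : ∀ p : ℝ × (Fin 3 → ℝ), p.1 ∉ Set.Icc (1 / 4 : ℝ) (3 / 4) → U p = 0) :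
    ∃ Φ : ℝ → (Fin 3 → ℝ) → (Fin 3 → ℝ), IsFlow U Φ ∧
      ∀ γ : ℝ → (Fin 3 → ℝ), (∀ t, HasDerivAt γ (U (t, γ t)) t) → ∀ t, Φ t (γ 0) = γ t := by
  choose Γ hΓ0 hΓ using exists_solution hU hc h0
  obtain ⟨K, hK⟩ := hU.lipschitzWith_of_hasCompactSupport hc (by simp)
  refine ⟨fun t x => Γ x t, ⟨hΓ0, fun t x => hΓ x t⟩, fun γ hγ t => ?_⟩
  have := ODE_solution_unique_univ (v := fun t x => U (t, x)) (s := fun _ => univ) (K := K)
    (f := Γ (γ 0)) (g := γ) (t₀ := 0) (fun t => (lip_slice hK t).lipschitzOnWith)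
    (fun t => ⟨hΓ _ t, trivial⟩) (fun t => ⟨hγ t, trivial⟩) (hΓ0 _)
  exact congrFun this t

end Crest.Agent.H0170
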