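import Crest.Agent.H0170.CA
import Crest.Prelude.Def_BoxFlow

/-! A class of effectively smooth functions on space-time, closed under the ring operations,
composition with the flat function, and partial derivatives. -/

set_option autoImplicit false
set_option linter.unusedVariables false

namespace Crest.Agent.H0170

open scoped ContDiff
open Crest.AnalysisR.BoxFlow

abbrev ST : Type := ℝ × (Fin 3 → ℝ)
abbrev RP : Type := ℚ × (Fin 3 → ℚ)

/-- a rational point as a point of space-time -/
def emb (p : RP) : ST := ((p.1 : ℝ), ratPoint p.2)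

/-- uniform effective local bounds on the derivatives -/
def Bdd (f : ST → ℝ) : Prop :=
  ∃ B : ℕ → ℕ → ℕ, Primrec₂ B ∧ ∀ (R k i : ℕ) (p : ST), i ≤ k → ‖p‖ ≤ R →
    ‖iteratedFDeriv ℝ i f p‖ ≤ B R k

structure Good (f : ST → ℝ) : Prop where
  smooth : ContDiff ℝ ∞ f
  bdd : Bdd f
  ca : CA (fun p : RP => f (emb p))

lemma natle (i : ℕ) : (i : WithTop ℕ∞) ≤ ∞ := by exact_mod_cast le_top

lemma Good.const {c : ℝ} (hc : CA (fun _ : RP => c)) : Good (fun _ => c) := by
  refine ⟨contDiff_const, ⟨fun _ _ => ⌈|c|⌉₊, Primrec₂.const _, ?_⟩, hc⟩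
  intro R k i p _ _
  rcases Nat.eq_zero_or_pos i with rfl | hi
  · rw [norm_iteratedFDeriv_zero]; exact Nat.le_ceil _
  · rw [iteratedFDeriv_const_of_ne hi.ne']; simp

lemma Good.rat (c : ℚ) : Good (fun _ => (c : ℝ)) := Good.const (CA.rat (Primrec.const c))

lemma Good.nat (c : ℕ) : Good (fun _ => (c : ℝ)) := by simpa using Good.rat c

lemma Good.one : Good (fun _ => (1 : ℝ)) := by simpa using Good.rat 1

lemma Good.zero : Good (fun _ => (0 : ℝ)) := by simpa using Good.rat 0

lemma Good.log (r : ℚ) (hr : 0 < r) : Good (fun _ => Real.log r) := Good.const (ca_log_rat r hr)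

lemma bdd_clm (L : ST →L[ℝ] ℝ) (hL : ‖L‖ ≤ 1) : Bdd L := by
  refine ⟨fun R _ => R + 1, (Primrec.succ.comp Primrec.fst).to₂, ?_⟩
  intro R k i p _ hp
  push_cast
  have hR : (0 : ℝ) ≤ R := Nat.cast_nonneg _
  rcases i with _ | i
  · rw [norm_iteratedFDeriv_zero]
    have := L.le_opNorm p
    nlinarith [norm_nonneg p, norm_nonneg L]
  · rw [← norm_iteratedFDeriv_fderiv]
    have : fderiv ℝ L = fun _ => L := by funext x; exact L.fderiv
    rw [this]
    rcases Nat.eq_zero_or_pos i with rfl | hi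
    · rw [norm_iteratedFDeriv_zero]; linarith
    · rw [iteratedFDeriv_const_of_ne hi.ne']; simp; linarith

lemma Good.time : Good (fun p => p.1) := by
  refine ⟨contDiff_fst, ?_, CA.rat Primrec.fst⟩
  refine bdd_clm (ContinuousLinearMap.fst ℝ ℝ (Fin 3 → ℝ)) ?_
  exact ContinuousLinearMap.opNorm_le_bound _ zero_le_one fun x => by
    simpa using norm_fst_le x

lemma primrec_coord (j : Fin 3) : Primrec fun p : RP => p.2 j :=
  Primrec.fin_app.comp Primrec.snd (Primrec.const j)

lemma Good.coord (j : Fin 3) : Good (fun p => p.2 j) := by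
  refine ⟨by fun_prop, ?_, CA.rat (primrec_coord j)⟩
  refine bdd_clm ((ContinuousLinearMap.proj j).comp (ContinuousLinearMap.snd ℝ ℝ (Fin 3 → ℝ))) ?_
  exact ContinuousLinearMap.opNorm_le_bound _ zero_le_one fun x => by
    simpa using (norm_le_pi_norm x.2 j).trans (norm_snd_le x)

lemma Good.add {f g : ST → ℝ} (hf : Good f) (hg : Good g) : Good (fun p => f p + g p) := by
  refine ⟨hf.smooth.add hg.smooth, ?_, hf.ca.add hg.ca⟩
  obtain ⟨B, hB, hBf⟩ := hf.bdd
  obtain ⟨C, hC, hCg⟩ := hg.bdd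
  refine ⟨fun R k => B R k + C R k, Primrec.nat_add.comp₂ hB hC, fun R k i p hi hp => ?_⟩
  have : (fun p => f p + g p) = f + g := rfl
  rw [this, iteratedFDeriv_add_apply (hf.smooth.of_le (natle i)).contDiffAt
    (hg.smooth.of_le (natle i)).contDiffAt]
  refine (norm_add_le _ _).trans ?_
  push_cast
  exact add_le_add (hBf R k i p hi hp) (hCg R k i p hi hp)

lemma Good.neg {f : ST → ℝ} (hf : Good f) : Good (fun p => - f p) := by
  refine ⟨hf.smooth.neg, ?_, hf.ca.neg⟩
  obtain ⟨B, hB, hBf⟩ := hf.bdd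
  refine ⟨B, hB, fun R k i p hi hp => ?_⟩
  have : (fun p => - f p) = - f := rfl
  rw [this, iteratedFDeriv_neg_apply, norm_neg]
  exact hBf R k i p hi hp

lemma Good.sub {f g : ST → ℝ} (hf : Good f) (hg : Good g) : Good (fun p => f p - g p) := by
  simpa only [sub_eq_add_neg] using hf.add hg.neg

lemma Good.mul {f g : ST → ℝ} (hf : Good f) (hg : Good g) : Good (fun p => f p * g p) := by
  refine ⟨hf.smooth.mul hg.smooth, ?_, hf.ca.mul hg.ca⟩
  obtain ⟨B, hB, hBf⟩ := hf.bdd
  obtain ⟨C, hC, hCg⟩ := hg.bdd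
  refine ⟨fun R k => 2 ^ k * (B R k * C R k), (Primrec.nat_mul.comp
    (primrec_natPow (Primrec.const 2) Primrec.snd) (Primrec.nat_mul.comp hB hC)).to₂,
    fun R k i p hi hp => ?_⟩
  refine (norm_iteratedFDeriv_mul_le hf.smooth hg.smooth p (natle i)).trans ?_
  have h1 : ∀ l ∈ Finset.range (i + 1), (i.choose l : ℝ) * ‖iteratedFDeriv ℝ l f p‖ *
      ‖iteratedFDeriv ℝ (i - l) g p‖ ≤ (i.choose l : ℝ) * ((B R k : ℝ) * C R k) := by
    intro l hl
    have hl' : l ≤ i := Nat.lt_succ_iff.1 (Finset.mem_range.1 hl)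
    rw [mul_assoc]
    refine mul_le_mul_of_nonneg_left ?_ (Nat.cast_nonneg _)
    exact mul_le_mul (hBf R k l p (hl'.trans hi) hp) (hCg R k (i - l) p (by omega) hp)
      (norm_nonneg _) (Nat.cast_nonneg _)
  refine (Finset.sum_le_sum h1).trans ?_
  rw [← Finset.sum_mul]
  have h2 : ∑ l ∈ Finset.range (i + 1), (i.choose l : ℝ) = 2 ^ i := by
    exact_mod_cast Nat.sum_range_choose i
  rw [h2]
  push_cast
  refine mul_le_mul_of_nonneg_right (pow_le_pow_right₀ (by norm_num) hi) (by positivity)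

lemma Good.ft {f : ST → ℝ} (hf : Good f) : Good (fun p => ft (f p)) := by
  refine ⟨ft_smooth.comp hf.smooth, ?_, hf.ca.ft⟩
  obtain ⟨B, hB, hBf⟩ := hf.bdd
  refine ⟨fun R k => (k + 1) ^ k * ftB k * (B R k + 1) ^ k, (Primrec.nat_mul.comp
    (Primrec.nat_mul.comp (primrec_natPow (Primrec.succ.comp Primrec.snd) Primrec.snd)
      (primrec_ftB.comp Primrec.snd))
    (primrec_natPow (Primrec.succ.comp hB) Primrec.snd)).to₂,
    fun R k i p hi hp => ?_⟩
  have hD : (1 : ℝ) ≤ (B R k : ℝ) + 1 := by linarith [(Nat.cast_nonneg (B R k) : (0 : ℝ) ≤ _)]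
  have h := norm_iteratedFDeriv_comp_le ft_smooth hf.smooth (natle i) p (C := ftB k)
    (D := (B R k : ℝ) + 1) (fun l hl => ft_iter_bound k l (hl.trans hi) _)
    (fun l hl1 hl => by
      refine (hBf R k l p (hl.trans hi) hp).trans ?_
      refine le_trans (by linarith) (le_self_pow₀ hD (by omega)))
  refine le_trans h ?_
  push_cast
  have h1 : (i.factorial : ℝ) ≤ ((k : ℝ) + 1) ^ k := by
    have : i.factorial ≤ (k + 1) ^ k :=
      (Nat.factorial_le hi).trans
        ((Nat.factorial_le_pow _).trans (Nat.pow_le_pow_left (by omega) _))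
    exact_mod_cast this
  have h2 : ((B R k : ℝ) + 1) ^ i ≤ ((B R k : ℝ) + 1) ^ k := pow_le_pow_right₀ hD hi
  gcongr

lemma Good.sum {ι : Type} (s : Finset ι) {f : ι → ST → ℝ} (hf : ∀ i, Good (f i)) :
    Good (fun p => ∑ i ∈ s, f i p) := by
  classical
  induction s using Finset.induction_on with
  | empty => simpa using Good.zero
  | insert a s ha ih =>
    simp only [Finset.sum_insert ha]
    exact (hf a).add ih

lemma Good.prod {ι : Type} (s : Finset ι) {f : ι → ST → ℝ} (hf : ∀ i, Good (f i)) :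
    Good (fun p => ∏ i ∈ s, f i p) := by
  classical
  induction s using Finset.induction_on with
  | empty => simpa using Good.one
  | insert a s ha ih =>
    simp only [Finset.prod_insert ha]
    exact (hf a).mul ih

/-! ### mixed derivatives and finite differences -/

/-- scalar mixed derivative -/
noncomputable def md : List (Fin 4) → (ST → ℝ) → ST → ℝ
  | [], g => g
  | d :: ds, g => fun p => fderiv ℝ (md ds g) p (direction d)

lemma norm_direction (d : Fin 4) : ‖direction d‖ ≤ 1 := by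
  unfold direction
  split_ifs with h
  · simp
  · simp [Pi.norm_single]

lemma md_smooth {g : ST → ℝ} (hg : ContDiff ℝ ∞ g) : ∀ ds, ContDiff ℝ ∞ (md ds g)
  | [] => hg
  | d :: ds => ((md_smooth hg ds).fderiv_right (m := ∞) (by simp)).clm_apply contDiff_const

lemma md_diff {g : ST → ℝ} (hg : ContDiff ℝ ∞ g) (ds : List (Fin 4)) :
    Differentiable ℝ (md ds g) := (md_smooth hg ds).differentiable (by simp)

lemma md_norm_le {g : ST → ℝ} (hg : ContDiff ℝ ∞ g) : ∀ (ds : List (Fin 4)) (i : ℕ) (p : ST),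
    ‖iteratedFDeriv ℝ i (md ds g) p‖ ≤ ‖iteratedFDeriv ℝ (i + ds.length) g p‖
  | [], i, p => le_rfl
  | d :: ds, i, p => by
    have h1 := norm_iteratedFDeriv_clm_apply_const (𝕜 := ℝ) (f := fderiv ℝ (md ds g))
      (c := direction d) (x := p) (N := ∞) (n := i)
      ((md_smooth hg ds).fderiv_right (m := ∞) (by simp)).contDiffAt (natle i)
    refine le_trans h1 ?_
    rw [norm_iteratedFDeriv_fderiv]
    have h2 := md_norm_le hg ds (i + 1) p
    have e : i + 1 + ds.length = i + (d :: ds).length := by simp; ring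
    rw [e] at h2
    have h3 := norm_direction d
    nlinarith [norm_nonneg (iteratedFDeriv ℝ (i + 1) (md ds g) p), norm_nonneg (direction d)]

lemma md_shift_sub {g : ST → ℝ} (hg : ContDiff ℝ ∞ g) (v : ST) : ∀ ds : List (Fin 4),
    md ds (fun p => g (p + v) - g p) = fun p => md ds g (p + v) - md ds g p
  | [] => rfl
  | d :: ds => by
    funext p
    simp only [md]
    rw [md_shift_sub hg v ds]
    have h1 : DifferentiableAt ℝ (fun p => md ds g (p + v)) p :=
      (md_diff hg ds (p + v)).comp p (differentiableAt_id.add_const v)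
    rw [fderiv_fun_sub h1 (md_diff hg ds p), fderiv_comp_add_right]
    rfl

/-- iterated finite differences -/
def fd (ε : ℝ) : List (Fin 4) → (ST → ℝ) → ST → ℝ
  | [], g => g
  | d :: ds, g => fd ε ds (fun p => g (p + ε • direction d) - g p)

lemma fd_mvt {ε : ℝ} (hε : 0 < ε) (p : ST) : ∀ (ds : List (Fin 4)) (g : ST → ℝ),
    ContDiff ℝ ∞ g → ∃ ξ, ‖ξ - p‖ ≤ ds.length * ε ∧ fd ε ds g p = ε ^ ds.length * md ds g ξ
  | [], g, hg => ⟨p, by simp, by simp [fd, md]⟩
  | d :: ds, g, hg => by
    have hG : ContDiff ℝ ∞ (fun p => g (p + ε • direction d) - g p) :=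
      (hg.comp (contDiff_id.add contDiff_const)).sub hg
    obtain ⟨ξ, hξ, h⟩ := fd_mvt hε p ds _ hG
    rw [md_shift_sub hg] at h
    have hder : ∀ s : ℝ, HasDerivAt (fun s : ℝ => md ds g (ξ + s • direction d))
        (fderiv ℝ (md ds g) (ξ + s • direction d) (direction d)) s := by
      intro s
      have h1 : HasDerivAt (fun s : ℝ => ξ + s • direction d) (direction d) s := by
        simpa using ((hasDerivAt_id s).smul_const (direction d)).const_add ξ
      exact (md_diff hg ds _).hasFDerivAt.comp_hasDerivAt s h1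
    obtain ⟨c, hc, hc2⟩ := exists_hasDerivAt_eq_slope _ _ hε
      (fun s _ => (hder s).continuousAt.continuousWithinAt) (fun s _ => hder s)
    refine ⟨ξ + c • direction d, ?_, ?_⟩
    · have e : ξ + c • direction d - p = (ξ - p) + c • direction d := by abel
      rw [e]
      refine (norm_add_le _ _).trans ?_
      rw [norm_smul, Real.norm_eq_abs, abs_of_pos hc.1]
      have := norm_direction d
      simp only [List.length_cons]; push_cast
      nlinarith [hc.1, hc.2, norm_nonneg (direction d)]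
    · simp only [fd, md, List.length_cons]
      rw [h, hc2]
      simp only [zero_smul, add_zero, sub_zero]
      field_simp
      ring

/-- rational shift in a coordinate direction -/
def shift (ε : ℚ) (d : Fin 4) (p : RP) : RP :=
  (p.1 + (if d = 0 then ε else 0), fun j => p.2 j + (if d = j.succ then ε else 0))

lemma emb_shift (ε : ℚ) (d : Fin 4) (p : RP) :
    emb (shift ε d p) = emb p + (ε : ℝ) • direction d := by
  unfold emb shift direction ratPoint
  by_cases h : d = 0
  · subst h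
    ext j
    · simp
    · simp [(Fin.succ_ne_zero j).symm]
  · rw [dif_neg h]
    ext j
    · simp [h]
    · by_cases hj : d = j.succ
      · subst hj; simp
      · have : j ≠ d.pred h := by
          rintro rfl
          exact hj (Fin.succ_pred d h).symm
        simp [hj, Pi.single_eq_of_ne this]

lemma primrec_shift {α : Type} [Primcodable α] {e : α → ℚ} {d : α → Fin 4} {p : α → RP}
    (he : Primrec e) (hd : Primrec d) (hp : Primrec p) :
    Primrec fun a => shift (e a) (d a) (p a) := by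
  unfold shift
  refine Primrec.pair ?_ ?_
  · exact primrec_add (Primrec.fst.comp hp)
      (Primrec.ite (Primrec.eq.comp hd (Primrec.const 0)) he (Primrec.const 0))
  · refine Primrec.fin_curry.2 (Primrec₂.swap (Primrec.fin_curry₁.2 fun j => ?_))
    exact primrec_add ((primrec_coord j).comp hp)
      (Primrec.ite (Primrec.eq.comp hd (Primrec.const j.succ)) he (Primrec.const 0))

/-- the signed points of an iterated difference -/
def pts (ε : ℚ) (p : RP) (ds : List (Fin 4)) : List (ℚ × RP) :=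
  ds.foldr (fun d L => L.map (fun x => (x.1, shift ε d x.2)) ++ L.map (fun x => (-x.1, x.2)))
    [(1, p)]

/-- evaluation on a list of signed points -/
def ev (L : List (ℚ × RP)) (G : RP → ℝ) : ℝ := (L.map (fun x => (x.1 : ℝ) * G x.2)).sum

lemma ev_cons (ε : ℚ) (p : RP) (d : Fin 4) (ds : List (Fin 4)) (G : RP → ℝ) :
    ev (pts ε p (d :: ds)) G = ev (pts ε p ds) (fun q => G (shift ε d q) - G q) := by
  have : pts ε p (d :: ds) = (pts ε p ds).map (fun x => (x.1, shift ε d x.2)) ++
      (pts ε p ds).map (fun x => (-x.1, x.2)) := rfl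
  rw [this]
  generalize pts ε p ds = L
  simp only [ev, List.map_append, List.map_map, List.sum_append]
  induction L with
  | nil => simp
  | cons x L ih =>
    simp only [List.map_cons, List.sum_cons, Function.comp_apply] at ih ⊢
    rw [← ih]; push_cast; ring

lemma ev_nil (ε : ℚ) (p : RP) (G : RP → ℝ) : ev (pts ε p []) G = G p := by
  simp [ev, pts]

lemma ev_eq_fd (ε : ℚ) (p : RP) : ∀ (ds : List (Fin 4)) (g : ST → ℝ),
    ev (pts ε p ds) (fun q => g (emb q)) = fd ε ds g (emb p)
  | [], g => ev_nil _ _ _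
  | d :: ds, g => by
    rw [ev_cons]
    simp only [fd, emb_shift]
    exact ev_eq_fd ε p ds (fun p => g (p + (ε : ℝ) • direction d) - g p)

lemma ev_abs_le (ε : ℚ) (p : RP) : ∀ (ds : List (Fin 4)) (G : RP → ℝ) (δ : ℝ),
    (∀ q, |G q| ≤ δ) → |ev (pts ε p ds) G| ≤ 2 ^ ds.length * δ
  | [], G, δ, h => by rw [ev_nil]; simpa using h p
  | d :: ds, G, δ, h => by
    rw [ev_cons]
    have := ev_abs_le ε p ds (fun q => G (shift ε d q) - G q) (2 * δ) fun q => by
      refine (abs_sub _ _).trans ?_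
      linarith [h (shift ε d q), h q]
    refine this.trans (le_of_eq ?_)
    simp only [List.length_cons]; ring

lemma ev_sub (L : List (ℚ × RP)) (G H : RP → ℝ) :
    ev L G - ev L H = ev L (fun q => G q - H q) := by
  induction L with
  | nil => simp [ev]
  | cons x L ih =>
    simp only [ev, List.map_cons, List.sum_cons] at ih ⊢
    rw [← ih]; ring

/-- rational evaluation -/
def evq (L : List (ℚ × RP)) (G : RP → ℚ) : ℚ := L.foldr (fun x s => x.1 * G x.2 + s) 0

lemma evq_cast (L : List (ℚ × RP)) (G : RP → ℚ) :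
    (evq L G : ℝ) = ev L (fun q => (G q : ℝ)) := by
  induction L with
  | nil => simp [ev, evq]
  | cons x L ih =>
    simp only [ev, evq, List.map_cons, List.sum_cons, List.foldr_cons] at ih ⊢
    rw [← ih]; push_cast; ring

lemma primrec_pts {α : Type} [Primcodable α] {e : α → ℚ} {p : α → RP} {ds : α → List (Fin 4)}
    (he : Primrec e) (hp : Primrec p) (hds : Primrec ds) :
    Primrec fun a => pts (e a) (p a) (ds a) := by
  unfold pts
  refine Primrec.list_foldr (h := fun a (y : Fin 4 × List (ℚ × RP)) =>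
    y.2.map (fun x => (x.1, shift (e a) y.1 x.2)) ++ y.2.map (fun x => (-x.1, x.2))) hds
    (Primrec.list_cons.comp (Primrec.pair (Primrec.const 1) hp) (Primrec.const [])) ?_
  have h1 : Primrec fun z : α × (Fin 4 × List (ℚ × RP)) =>
      z.2.2.map (fun x => (x.1, shift (e z.1) z.2.1 x.2)) := by
    refine Primrec.list_map (g := fun (z : α × (Fin 4 × List (ℚ × RP))) (x : ℚ × RP) =>
      (x.1, shift (e z.1) z.2.1 x.2)) (Primrec.snd.comp Primrec.snd) ?_
    exact (Primrec.pair (Primrec.fst.comp Primrec.snd)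
      (primrec_shift (he.comp (Primrec.fst.comp Primrec.fst))
      (Primrec.fst.comp (Primrec.snd.comp Primrec.fst)) (Primrec.snd.comp Primrec.snd))).to₂
  have h2 : Primrec fun z : α × (Fin 4 × List (ℚ × RP)) =>
      z.2.2.map (fun x => (-x.1, x.2)) := by
    refine Primrec.list_map (g := fun (z : α × (Fin 4 × List (ℚ × RP))) (x : ℚ × RP) =>
      (-x.1, x.2)) (Primrec.snd.comp Primrec.snd) ?_
    exact (Primrec.pair (primrec_neg (Primrec.fst.comp Primrec.snd))
      (Primrec.snd.comp Primrec.snd)).to₂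
  exact (Primrec.list_append.comp h1 h2).to₂

lemma primrec_evq {α : Type} [Primcodable α] {L : α → List (ℚ × RP)} {G : α → RP → ℚ}
    (hL : Primrec L) (hG : Primrec₂ G) : Primrec fun a => evq (L a) (G a) := by
  unfold evq
  refine Primrec.list_foldr (h := fun a (y : (ℚ × RP) × ℚ) => y.1.1 * G a y.1.2 + y.2) hL
    (Primrec.const 0) ?_
  exact (primrec_add (primrec_mul (Primrec.fst.comp (Primrec.fst.comp Primrec.snd))
    (hG.comp Primrec.fst (Primrec.snd.comp (Primrec.fst.comp Primrec.snd))))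
    (Primrec.snd.comp Primrec.snd)).to₂

/-- a computable radius -/
def rad (p : RP) : ℕ :=
  p.1.num.natAbs + ((p.2 0).num.natAbs + (p.2 1).num.natAbs + (p.2 2).num.natAbs)

lemma primrec_rad : Primrec rad :=
  Primrec.nat_add.comp (primrec_natAbs Primrec.fst) (Primrec.nat_add.comp
    (Primrec.nat_add.comp (primrec_natAbs (primrec_coord 0)) (primrec_natAbs (primrec_coord 1)))
    (primrec_natAbs (primrec_coord 2)))

lemma norm_emb_le (p : RP) : ‖emb p‖ ≤ rad p := by
  have h0 := abs_le_natAbs p.1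
  have h1 := abs_le_natAbs (p.2 0)
  have h2 := abs_le_natAbs (p.2 1)
  have h3 := abs_le_natAbs (p.2 2)
  have a0 : (0 : ℝ) ≤ (p.1.num.natAbs : ℝ) := Nat.cast_nonneg _
  have a1 : (0 : ℝ) ≤ ((p.2 0).num.natAbs : ℝ) := Nat.cast_nonneg _
  have a2 : (0 : ℝ) ≤ ((p.2 1).num.natAbs : ℝ) := Nat.cast_nonneg _
  have a3 : (0 : ℝ) ≤ ((p.2 2).num.natAbs : ℝ) := Nat.cast_nonneg _
  have e : (rad p : ℝ) = (p.1.num.natAbs : ℝ) + (((p.2 0).num.natAbs : ℝ)
      + ((p.2 1).num.natAbs : ℝ) + ((p.2 2).num.natAbs : ℝ)) := by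
    simp only [rad, Nat.cast_add]
  rw [e, emb, Prod.norm_def, max_le_iff]
  constructor
  · rw [Real.norm_eq_abs]; linarith
  · rw [pi_norm_le_iff_of_nonneg (by linarith)]
    intro j
    fin_cases j <;> simp only [ratPoint, Real.norm_eq_abs] <;> simp only [Fin.zero_eta, Fin.mk_one,
      Fin.reduceFinMk] <;> linarith

theorem Good.ca_md {g : ST → ℝ} (hg : Good g) :
    CA (fun x : List (Fin 4) × RP => md x.1 g (emb x.2)) := by
  obtain ⟨B, hB, hBg⟩ := hg.bdd
  obtain ⟨E, hE, hEg⟩ := hg.ca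
  refine CA.of_lim
    (fun x N => ((N + 1 : ℕ) : ℚ) ^ x.1.length *
      evq (pts (((N + 1 : ℕ) : ℚ))⁻¹ x.2 x.1)
        (fun q => E q ((N + 1) ^ (x.1.length + 1) * 2 ^ x.1.length))) ?_
    (fun x => x.1.length * B (rad x.2 + x.1.length) (x.1.length + 1) + 1) ?_ ?_
  · have hN : Primrec fun y : (List (Fin 4) × RP) × ℕ => y.2 + 1 := Primrec.succ.comp Primrec.snd
    have hl : Primrec fun y : (List (Fin 4) × RP) × ℕ => y.1.1.length :=
      Primrec.list_length.comp (Primrec.fst.comp Primrec.fst)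
    have hM : Primrec fun y : (List (Fin 4) × RP) × ℕ =>
        (y.2 + 1) ^ (y.1.1.length + 1) * 2 ^ y.1.1.length :=
      Primrec.nat_mul.comp (primrec_natPow hN (Primrec.succ.comp hl))
        (primrec_natPow (Primrec.const 2) hl)
    have hG : Primrec₂ fun (y : (List (Fin 4) × RP) × ℕ) (q : RP) =>
        E q ((y.2 + 1) ^ (y.1.1.length + 1) * 2 ^ y.1.1.length) :=
      (hE.comp Primrec.snd (hM.comp Primrec.fst)).to₂
    exact (primrec_mul (primrec_pow (primrec_natCast hN) hl) (primrec_evq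
      (primrec_pts (primrec_inv (primrec_natCast hN)) (Primrec.snd.comp Primrec.fst)
        (Primrec.fst.comp Primrec.fst)) hG)).to₂
  · have hl : Primrec fun y : List (Fin 4) × RP => y.1.length :=
      Primrec.list_length.comp Primrec.fst
    exact Primrec.succ.comp (Primrec.nat_mul.comp hl (hB.comp
      (Primrec.nat_add.comp (primrec_rad.comp Primrec.snd) hl) (Primrec.succ.comp hl)))
  · rintro ⟨ds, p⟩ N
    simp only
    set k := ds.length with hk
    set M := (N + 1) ^ (k + 1) * 2 ^ k with hM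
    set ε : ℚ := (((N + 1 : ℕ) : ℚ))⁻¹ with hε
    have hN1 : (1 : ℝ) ≤ (N : ℝ) + 1 := by linarith [(Nat.cast_nonneg N : (0 : ℝ) ≤ N)]
    have hεR : (ε : ℝ) = ((N : ℝ) + 1)⁻¹ := by rw [hε]; push_cast; rfl
    have hεpos : (0 : ℝ) < ε := by rw [hεR]; positivity
    have hε1 : (ε : ℝ) ≤ 1 := by rw [hεR]; exact inv_le_one_of_one_le₀ hN1
    obtain ⟨ξ, hξ, hfd⟩ := fd_mvt hεpos (emb p) ds g hg.smooth
    rw [← hk] at hξ hfd
    rw [Rat.cast_mul, evq_cast]
    have h1 : |ev (pts ε p ds) (fun q => g (emb q)) - ev (pts ε p ds) (fun q => (E q M : ℝ))|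
        ≤ 2 ^ k * (1 / ((M : ℝ) + 1)) := by
      rw [ev_sub]
      exact ev_abs_le ε p ds _ _ fun q => hEg q M
    rw [ev_eq_fd, hfd] at h1
    set R := rad p + k with hR
    have hk0 : (0 : ℝ) ≤ k := Nat.cast_nonneg _
    have hp := norm_emb_le p
    have hRR : (R : ℝ) = rad p + k := by rw [hR]; push_cast; rfl
    have h2 : ‖md ds g (emb p) - md ds g ξ‖ ≤ B R (k + 1) * ‖emb p - ξ‖ := by
      refine Convex.norm_image_sub_le_of_norm_fderiv_le (𝕜 := ℝ) (s := Metric.closedBall 0 R)
        (fun x _ => md_diff hg.smooth ds x) (fun x hx => ?_) (convex_closedBall _ _) ?_ ?_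
      · rw [← norm_iteratedFDeriv_one]
        refine (md_norm_le hg.smooth ds 1 x).trans ?_
        exact hBg R (k + 1) _ x (by omega) (by simpa using hx)
      · rw [mem_closedBall_zero_iff, hRR]
        have : ‖ξ‖ ≤ ‖ξ - emb p‖ + ‖emb p‖ := by simpa using norm_add_le (ξ - emb p) (emb p)
        nlinarith
      · rw [mem_closedBall_zero_iff, hRR]; linarith
    rw [norm_sub_rev (emb p) ξ, Real.norm_eq_abs] at h2
    set X := ev (pts ε p ds) (fun q => (E q M : ℝ))
    have hpow : (((N + 1 : ℕ) : ℚ) ^ k : ℚ) = (((N : ℝ) + 1) ^ k : ℝ) := by push_cast; rfl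
    rw [hpow]
    have e1 : md ds g (emb p) - ((N : ℝ) + 1) ^ k * X = (md ds g (emb p) - md ds g ξ)
        + ((N : ℝ) + 1) ^ k * ((ε : ℝ) ^ k * md ds g ξ - X) := by
      rw [hεR, mul_sub, ← mul_assoc, ← mul_pow, mul_inv_cancel₀ (by positivity)]
      simp
    rw [e1]
    refine (abs_add_le _ _).trans ?_
    rw [abs_mul, abs_of_nonneg (by positivity : (0 : ℝ) ≤ ((N : ℝ) + 1) ^ k)]
    have h3 : ((N : ℝ) + 1) ^ k * |(ε : ℝ) ^ k * md ds g ξ - X| ≤ 1 / ((N : ℝ) + 1) := by
      refine (mul_le_mul_of_nonneg_left h1 (by positivity)).trans ?_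
      have hMR : (M : ℝ) = ((N : ℝ) + 1) ^ (k + 1) * 2 ^ k := by rw [hM]; push_cast; rfl
      rw [hMR, ← mul_assoc, mul_one_div, div_le_div_iff₀ (by positivity) (by positivity)]
      rw [pow_succ]
      nlinarith
    have h4 : (B R (k + 1) : ℝ) * ‖ξ - emb p‖ ≤ k * B R (k + 1) / ((N : ℝ) + 1) := by
      refine (mul_le_mul_of_nonneg_left hξ (Nat.cast_nonneg _)).trans (le_of_eq ?_)
      rw [hεR]; field_simp
    push_cast
    rw [add_div]
    linarith

theorem Good.deriv {g : ST → ℝ} (hg : Good g) (d : Fin 4) :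
    Good (fun p => fderiv ℝ g p (direction d)) := by
  refine ⟨md_smooth hg.smooth [d], ?_,
    hg.ca_md.comp (Primrec.pair (Primrec.const [d]) Primrec.id)⟩
  obtain ⟨B, hB, hBg⟩ := hg.bdd
  refine ⟨fun R k => B R (k + 1), (hB.comp Primrec.fst (Primrec.succ.comp Primrec.snd)).to₂,
    fun R k i p hi hp => ?_⟩
  exact (md_norm_le hg.smooth [d] i p).trans (hBg R (k + 1) _ p (by simpa using hi) hp)

lemma md_eq_zero {g : ST → ℝ} {V : Set ST} (hV : IsOpen V) (h : ∀ p ∈ V, g p = 0) :
    ∀ (ds : List (Fin 4)), ∀ p ∈ V, md ds g p = 0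
  | [] => h
  | d :: ds => fun p hp => by
    have : md ds g =ᶠ[nhds p] fun _ => 0 :=
      Filter.eventually_of_mem (hV.mem_nhds hp) (md_eq_zero hV h ds)
    simp only [md]
    rw [this.fderiv_eq]; simp

lemma mixedDeriv_smooth {U : Field} (hU : ContDiff ℝ ∞ U) : ∀ ds, ContDiff ℝ ∞ (mixedDeriv ds U)
  | [] => hU
  | d :: ds =>
    ((mixedDeriv_smooth hU ds).fderiv_right (m := ∞) (by simp)).clm_apply contDiff_const

lemma mixedDeriv_apply {U : Field} (hU : ContDiff ℝ ∞ U) (j : Fin 3) :
    ∀ ds, (fun p => mixedDeriv ds U p j) = md ds (fun p => U p j)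
  | [] => rfl
  | d :: ds => by
    funext p
    simp only [mixedDeriv, md]
    rw [← mixedDeriv_apply hU j ds,
      fderiv_apply ((mixedDeriv_smooth hU ds).differentiable (by simp) p) j]
    rfl

theorem effective_of_good {U : Field} (hU : ∀ j, Good (fun p => U p j)) (R : ℕ)
    (hR : ∀ p, (R : ℝ) < ‖p‖ → U p = 0) : Effective U := by
  have hsm : ContDiff ℝ ∞ U := contDiff_pi.2 fun j => (hU j).smooth
  choose E hE hEU using fun j => (hU j).ca_md
  choose B hB hBU using fun j => (hU j).bdd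
  refine ⟨fun x j => E j (x.1, x.2.1) x.2.2, fun ds => B 0 R ds.length + B 1 R ds.length
    + B 2 R ds.length, ?_, ?_, ?_, ?_⟩
  · refine Primrec.to_comp ?_
    refine Primrec.fin_curry.2 (Primrec₂.swap (Primrec.fin_curry₁.2 fun j => ?_))
    exact (hE j).comp (Primrec.pair Primrec.fst (Primrec.fst.comp Primrec.snd))
      (Primrec.snd.comp Primrec.snd)
  · refine Primrec.to_comp ?_
    have h : ∀ j, Primrec fun ds : List (Fin 4) => B j R ds.length := fun j =>
      (hB j).comp (Primrec.const R) Primrec.list_length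
    exact Primrec.nat_add.comp (Primrec.nat_add.comp (h 0) (h 1)) (h 2)
  · intro ds t q n j
    have := hEU j (ds, (t, q)) n
    simp only at this
    rw [← mixedDeriv_apply hsm j ds] at this
    exact this
  · intro ds p j
    have e : mixedDeriv ds U p j = md ds (fun p => U p j) p :=
      congrFun (mixedDeriv_apply hsm j ds) p
    rw [e]
    rcases le_or_gt ‖p‖ R with hp | hp
    · have h1 := md_norm_le (hU j).smooth ds 0 p
      rw [norm_iteratedFDeriv_zero, Real.norm_eq_abs] at h1
      have h2 := hBU j R ds.length (0 + ds.length) p (by simp) hp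
      refine (h1.trans h2).trans ?_
      have : B j R ds.length ≤ B 0 R ds.length + B 1 R ds.length + B 2 R ds.length := by
        fin_cases j <;> simp only [Fin.zero_eta, Fin.mk_one, Fin.reduceFinMk] <;> omega
      exact_mod_cast this
    · have := md_eq_zero (g := fun p => U p j) (V := {p | (R : ℝ) < ‖p‖})
        (isOpen_lt continuous_const continuous_norm) (fun p hp => by rw [hR p hp]; rfl) ds p hp
      rw [this, abs_zero]; exact Nat.cast_nonneg _

end Crest.Agent.H0170
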