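import Crest.Agent.H0170.Good

/-! Divergence-free fields realizing simultaneous affine motions of separated boxes. -/

set_option autoImplicit false
set_option linter.unusedVariables false

namespace Crest.Agent.H0170

open scoped ContDiff
open Crest.AnalysisR.BoxFlow Filter Topology

/-- smooth cut-off: `1` on `(-∞,0]`, `0` on `[1,∞)` -/
noncomputable def th (x : ℝ) : ℝ := ft (1 - ft x)

lemma th_of_nonpos {x : ℝ} (hx : x ≤ 0) : th x = 1 := by
  simp [th, ft_of_nonpos hx, ft_one]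

lemma th_of_one_le {x : ℝ} (hx : 1 ≤ x) : th x = 0 :=
  ft_of_nonpos (by linarith [one_le_ft hx])

lemma th_nonneg (x : ℝ) : 0 ≤ th x := ft_nonneg _

lemma th_le_one (x : ℝ) : th x ≤ 1 := ft_le_one (by linarith [ft_nonneg x])

lemma Good.th {f : ST → ℝ} (hf : Good f) : Good (fun p => th (f p)) := (Good.one.sub hf.ft).ft

/-- spatial partial derivative -/
noncomputable def D (j : Fin 3) (f : ST → ℝ) (p : ST) : ℝ := fderiv ℝ f p (0, Pi.single j 1)

lemma direction_succ (j : Fin 3) : direction j.succ = (0, Pi.single j 1) := by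
  unfold direction
  rw [dif_neg (Fin.succ_ne_zero j)]
  simp

lemma Good.D {f : ST → ℝ} (hf : Good f) (j : Fin 3) : Good (D j f) := by
  have := hf.deriv j.succ
  rw [direction_succ] at this
  exact this

lemma Good.diff {f : ST → ℝ} (hf : Good f) : Differentiable ℝ f :=
  hf.smooth.differentiable (by simp)

lemma D_add {f g : ST → ℝ} (hf : Good f) (hg : Good g) (j : Fin 3) (p : ST) :
    D j (fun p => f p + g p) p = D j f p + D j g p := by
  simp only [D]; rw [fderiv_fun_add (hf.diff p) (hg.diff p)]; rfl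

lemma D_sub {f g : ST → ℝ} (hf : Good f) (hg : Good g) (j : Fin 3) (p : ST) :
    D j (fun p => f p - g p) p = D j f p - D j g p := by
  simp only [D]; rw [fderiv_fun_sub (hf.diff p) (hg.diff p)]; rfl

lemma D_neg {f : ST → ℝ} (j : Fin 3) (p : ST) :
    D j (fun p => - f p) p = - D j f p := by
  simp only [D]; rw [fderiv_fun_neg]; rfl

lemma D_mul {f g : ST → ℝ} (hf : Good f) (hg : Good g) (j : Fin 3) (p : ST) :
    D j (fun p => f p * g p) p = f p * D j g p + g p * D j f p := by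
  simp only [D]; rw [fderiv_fun_mul (hf.diff p) (hg.diff p)]; simp

lemma diff_of_good {c : ℝ → ℝ} (hc : Good (fun p => c p.1)) : Differentiable ℝ c := by
  have h : Differentiable ℝ (fun t : ℝ => ((t, 0) : ST)) := by fun_prop
  exact hc.diff.comp h

lemma fderiv_time {c : ℝ → ℝ} (hc : Good (fun p => c p.1)) (p v : ST) :
    fderiv ℝ (fun p : ST => c p.1) p v = v.1 * deriv c p.1 := by
  have h := ((diff_of_good hc p.1).hasDerivAt.hasFDerivAt).comp p (hasFDerivAt_fst (𝕜 := ℝ))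
  have h2 : fderiv ℝ (fun p : ST => c p.1) p = _ := h.fderiv
  rw [h2]; simp

lemma D_time {c : ℝ → ℝ} (hc : Good (fun p => c p.1)) (j : Fin 3) (p : ST) :
    D j (fun p => c p.1) p = 0 := by
  simp [D, fderiv_time hc]

lemma Good.tderiv {c : ℝ → ℝ} (hc : Good (fun p => c p.1)) : Good (fun p => _root_.deriv c p.1) := by
  have := hc.deriv 0
  simp only [fderiv_time hc] at this
  simpa [direction] using this

lemma D_coord (i j : Fin 3) (p : ST) : D j (fun p => p.2 i) p = if i = j then 1 else 0 := by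
  have h : HasFDerivAt (fun p : ST => p.2 i)
      ((ContinuousLinearMap.proj i).comp (ContinuousLinearMap.snd ℝ ℝ (Fin 3 → ℝ))) p :=
    ((ContinuousLinearMap.proj i).comp (ContinuousLinearMap.snd ℝ ℝ (Fin 3 → ℝ))).hasFDerivAt
  simp [D, h.fderiv, Pi.single_apply]

lemma D_comm {f : ST → ℝ} (hf : Good f) (i j : Fin 3) (p : ST) :
    D i (D j f) p = D j (D i f) p := by
  have hd : DifferentiableAt ℝ (fderiv ℝ f) p :=
    ((hf.smooth.fderiv_right (m := ∞) (by simp)).differentiable (by simp)) p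
  have key : ∀ v w : ST, fderiv ℝ (fun q => fderiv ℝ f q v) p w = fderiv ℝ (fderiv ℝ f) p w v := by
    intro v w
    rw [fderiv_clm_apply hd (differentiableAt_const v)]
    simp
  have hs : IsSymmSndFDerivAt ℝ f p :=
    hf.smooth.contDiffAt.isSymmSndFDerivAt (by simpa using natle 2)
  unfold D
  rw [key, key, hs]

lemma D_congr {f g : ST → ℝ} {V : Set ST} (hV : IsOpen V) (h : ∀ p ∈ V, f p = g p) (j : Fin 3)
    {p : ST} (hp : p ∈ V) : D j f p = D j g p := by
  have : f =ᶠ[𝓝 p] g := Filter.eventually_of_mem (hV.mem_nhds hp) h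
  simp only [D, this.fderiv_eq]

/-- the field built from two potentials -/
noncomputable def curl2 (P Q : ST → ℝ) : Field :=
  fun p => ![D 1 P p, D 2 Q p - D 0 P p, - D 1 Q p]

lemma curl2_good {P Q : ST → ℝ} (hP : Good P) (hQ : Good Q) (j : Fin 3) :
    Good (fun p => curl2 P Q p j) := by
  fin_cases j
  · exact hP.D 1
  · exact (hQ.D 2).sub (hP.D 0)
  · exact (hQ.D 1).neg

lemma curl2_div {P Q : ST → ℝ} (hP : Good P) (hQ : Good Q) (p : ST) :
    spaceDiv (curl2 P Q) p = 0 := by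
  have hsm : ContDiff ℝ ∞ (curl2 P Q) := contDiff_pi.2 fun j => (curl2_good hP hQ j).smooth
  have h : ∀ j, fderiv ℝ (curl2 P Q) p (0, Pi.single j 1) j = D j (fun p => curl2 P Q p j) p := by
    intro j
    unfold D
    rw [fderiv_apply (hsm.differentiable (by simp) p) j]
    rfl
  unfold spaceDiv
  simp only [h, Fin.sum_univ_three]
  have e0 : (fun p => curl2 P Q p 0) = D 1 P := rfl
  have e1 : (fun p => curl2 P Q p 1) = fun p => D 2 Q p - D 0 P p := rfl
  have e2 : (fun p => curl2 P Q p 2) = fun p => - D 1 Q p := rfl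
  rw [e0, e1, e2, D_sub (hQ.D 2) (hP.D 0), D_neg, D_comm hP 0 1, D_comm hQ 1 2]
  ring

lemma curl2_congr {P Q P' Q' : ST → ℝ} {V : Set ST} (hV : IsOpen V) (hP : ∀ p ∈ V, P p = P' p)
    (hQ : ∀ p ∈ V, Q p = Q' p) {p : ST} (hp : p ∈ V) : curl2 P Q p = curl2 P' Q' p := by
  simp only [curl2, D_congr hV hP _ hp, D_congr hV hQ _ hp]

lemma curl2_zero (p : ST) : curl2 (fun _ => 0) (fun _ => 0) p = 0 := by
  funext j
  fin_cases j <;> simp [curl2, D]

lemma curl2_affine {c v L : Fin 3 → ℝ → ℝ} (hc : ∀ j, Good (fun p => c j p.1))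
    (hv : ∀ j, Good (fun p => v j p.1)) (hL : ∀ j, Good (fun p => L j p.1))
    (htr : ∀ t, L 0 t + L 1 t + L 2 t = 0) (p : ST) :
    curl2 (fun p => L 0 p.1 * ((p.2 0 - c 0 p.1) * (p.2 1 - c 1 p.1))
        + (v 0 p.1 * (p.2 1 - c 1 p.1) - v 1 p.1 * (p.2 0 - c 0 p.1)))
      (fun p => - (L 2 p.1 * ((p.2 1 - c 1 p.1) * (p.2 2 - c 2 p.1)) + v 2 p.1 * (p.2 1 - c 1 p.1)))
      p = fun j => v j p.1 + L j p.1 * (p.2 j - c j p.1) := by
  have hy : ∀ j, Good (fun p : ST => p.2 j - c j p.1) := fun j => (Good.coord j).sub (hc j)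
  have hDy : ∀ i j, D j (fun p : ST => p.2 i - c i p.1) p = if i = j then 1 else 0 := by
    intro i j
    rw [D_sub (Good.coord i) (hc i), D_coord, D_time (hc i), sub_zero]
  have hP : ∀ j, D j (fun p => L 0 p.1 * ((p.2 0 - c 0 p.1) * (p.2 1 - c 1 p.1))
        + (v 0 p.1 * (p.2 1 - c 1 p.1) - v 1 p.1 * (p.2 0 - c 0 p.1))) p
      = L 0 p.1 * ((p.2 0 - c 0 p.1) * (if 1 = j then 1 else 0)
          + (p.2 1 - c 1 p.1) * (if 0 = j then 1 else 0))
        + (v 0 p.1 * (if 1 = j then 1 else 0) - v 1 p.1 * (if 0 = j then 1 else 0)) := by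
    intro j
    rw [D_add ((hL 0).mul ((hy 0).mul (hy 1))) (((hv 0).mul (hy 1)).sub ((hv 1).mul (hy 0))),
      D_sub ((hv 0).mul (hy 1)) ((hv 1).mul (hy 0)), D_mul (hL 0) ((hy 0).mul (hy 1)),
      D_mul (hy 0) (hy 1), D_mul (hv 0) (hy 1), D_mul (hv 1) (hy 0), hDy, hDy, D_time (hL 0),
      D_time (hv 0), D_time (hv 1)]
    ring
  have hQ : ∀ j, D j (fun p => - (L 2 p.1 * ((p.2 1 - c 1 p.1) * (p.2 2 - c 2 p.1))
        + v 2 p.1 * (p.2 1 - c 1 p.1))) p
      = - (L 2 p.1 * ((p.2 1 - c 1 p.1) * (if 2 = j then 1 else 0)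
          + (p.2 2 - c 2 p.1) * (if 1 = j then 1 else 0))
        + v 2 p.1 * (if 1 = j then 1 else 0)) := by
    intro j
    rw [D_neg, D_add ((hL 2).mul ((hy 1).mul (hy 2))) ((hv 2).mul (hy 1)),
      D_mul (hL 2) ((hy 1).mul (hy 2)), D_mul (hy 1) (hy 2), D_mul (hv 2) (hy 1), hDy, hDy,
      D_time (hL 2), D_time (hv 2)]
    ring
  have ht := htr p.1
  funext j
  fin_cases j
  · simp only [curl2, hP, hQ]; simp; ring
  · simp only [curl2, hP, hQ]; simp
    have : L 1 p.1 = - L 0 p.1 - L 2 p.1 := by linarith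
    rw [this]; ring
  · simp only [curl2, hP, hQ]; simp; ring

theorem exists_motion (n : ℕ) (c w L : Fin n → Fin 3 → ℝ → ℝ) (η : ℚ) (hη : 0 < η)
    (hc : ∀ i j, Good (fun p => c i j p.1)) (hw : ∀ i j, Good (fun p => w i j p.1))
    (hL : ∀ i j, Good (fun p => L i j p.1)) (htr : ∀ i t, L i 0 t + L i 1 t + L i 2 t = 0)
    (hsep : ∀ t i i', i ≠ i' → ∃ j, w i j t + w i' j t + η ≤ |c i j t - c i' j t|)
    (hc0 : ∀ t, t ∉ Set.Icc (1 / 4 : ℝ) (3 / 4) → ∀ i j, deriv (c i j) t = 0)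
    (hL0 : ∀ t, t ∉ Set.Icc (1 / 4 : ℝ) (3 / 4) → ∀ i j, L i j t = 0) :
    ∃ U : Field, ContDiff ℝ ∞ U ∧ HasCompactSupport U ∧ Effective U ∧
      (∀ p : ℝ × (Fin 3 → ℝ), p.1 ∉ Set.Icc (1 / 4 : ℝ) (3 / 4) → U p = 0) ∧
      (∀ p : ℝ × (Fin 3 → ℝ), spaceDiv U p = 0) ∧
      ∀ i t (x : Fin 3 → ℝ), (∀ j, |x j - c i j t| < w i j t) →
        U (t, x) = fun j => deriv (c i j) t + L i j t * (x j - c i j t) := by
  classical
  have hη' : (0 : ℝ) < η := by exact_mod_cast hη
  have hy : ∀ i j, Good (fun p : ST => p.2 j - c i j p.1) :=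
    fun i j => (Good.coord j).sub (hc i j)
  have hv : ∀ i j, Good (fun p : ST => deriv (c i j) p.1) := fun i j => (hc i j).tderiv
  set χ : Fin n → ST → ℝ := fun i p => ∏ j : Fin 3,
    (th (((η⁻¹ : ℚ) : ℝ) * ((p.2 j - c i j p.1) - w i j p.1)) *
      th (((η⁻¹ : ℚ) : ℝ) * (-(p.2 j - c i j p.1) - w i j p.1))) with hχ
  have hχg : ∀ i, Good (χ i) := fun i => Good.prod _ fun j =>
    ((Good.rat _).mul ((hy i j).sub (hw i j))).th.mul
      ((Good.rat _).mul ((hy i j).neg.sub (hw i j))).th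
  have hχ1 : ∀ i (p : ST), (∀ j, |p.2 j - c i j p.1| < w i j p.1) → χ i p = 1 := by
    intro i p h
    refine Finset.prod_eq_one fun j _ => ?_
    have := abs_lt.1 (h j)
    rw [th_of_nonpos, th_of_nonpos, one_mul]
    · push_cast
      exact mul_nonpos_of_nonneg_of_nonpos (by positivity) (by linarith)
    · push_cast
      exact mul_nonpos_of_nonneg_of_nonpos (by positivity) (by linarith)
  have hχ0 : ∀ i (p : ST) j, w i j p.1 + η ≤ |p.2 j - c i j p.1| → χ i p = 0 := by
    intro i p j h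
    refine Finset.prod_eq_zero (Finset.mem_univ j) ?_
    rcases le_abs.1 h with h | h
    · rw [th_of_one_le, zero_mul]
      push_cast
      rw [← div_eq_inv_mul, one_le_div hη']; linarith
    · rw [th_of_one_le (x := _ * (-(p.2 j - c i j p.1) - w i j p.1)), mul_zero]
      push_cast
      rw [← div_eq_inv_mul, one_le_div hη']; linarith
  set Pi' : Fin n → ST → ℝ := fun i p =>
    L i 0 p.1 * ((p.2 0 - c i 0 p.1) * (p.2 1 - c i 1 p.1))
      + (deriv (c i 0) p.1 * (p.2 1 - c i 1 p.1) - deriv (c i 1) p.1 * (p.2 0 - c i 0 p.1))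
    with hPi
  set Qi : Fin n → ST → ℝ := fun i p =>
    - (L i 2 p.1 * ((p.2 1 - c i 1 p.1) * (p.2 2 - c i 2 p.1))
      + deriv (c i 2) p.1 * (p.2 1 - c i 1 p.1)) with hQi
  have hPig : ∀ i, Good (Pi' i) := fun i =>
    ((hL i 0).mul ((hy i 0).mul (hy i 1))).add
      (((hv i 0).mul (hy i 1)).sub ((hv i 1).mul (hy i 0)))
  have hQig : ∀ i, Good (Qi i) := fun i =>
    (((hL i 2).mul ((hy i 1).mul (hy i 2))).add ((hv i 2).mul (hy i 1))).neg
  set P : ST → ℝ := fun p => ∑ i, χ i p * Pi' i p with hP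
  set Q : ST → ℝ := fun p => ∑ i, χ i p * Qi i p with hQ
  have hPg : Good P := Good.sum _ fun i => (hχg i).mul (hPig i)
  have hQg : Good Q := Good.sum _ fun i => (hχg i).mul (hQig i)
  -- a bound for the moving boxes
  have hbd : ∀ ij : Fin n × Fin 3, ∃ R : ℝ, ∀ t ∈ Set.Icc (1 / 4 : ℝ) (3 / 4),
      |c ij.1 ij.2 t| + w ij.1 ij.2 t ≤ R := by
    intro ij
    have h1 : Continuous fun t => |c ij.1 ij.2 t| + w ij.1 ij.2 t :=
      (diff_of_good (hc _ _)).continuous.abs.add (diff_of_good (hw _ _)).continuous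
    obtain ⟨R, hR⟩ := (isCompact_Icc (a := (1 / 4 : ℝ)) (b := 3 / 4)).bddAbove_image
      h1.continuousOn
    exact ⟨R, fun t ht => hR ⟨t, ht, rfl⟩⟩
  choose Rf hRf using hbd
  obtain ⟨R0, hR0⟩ := (Set.finite_range Rf).bddAbove
  obtain ⟨R, hR⟩ := exists_nat_ge (|R0| + η + 1)
  have hR1 : (1 : ℝ) ≤ R := by linarith [abs_nonneg R0]
  set K : Set ST := Set.Icc (1 / 4 : ℝ) (3 / 4) ×ˢ Metric.closedBall 0 R with hK
  have hKc : IsCompact K := isCompact_Icc.prod (isCompact_closedBall _ _)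
  have hPQ : ∀ p ∈ Kᶜ, P p = 0 ∧ Q p = 0 := by
    intro p hp
    by_cases ht : p.1 ∈ Set.Icc (1 / 4 : ℝ) (3 / 4)
    · have hx : (R : ℝ) < ‖p.2‖ := by
        by_contra hx
        exact hp ⟨ht, by simpa using hx⟩
      obtain ⟨j, hj⟩ : ∃ j, (R : ℝ) < |p.2 j| := by
        by_contra hcon
        push Not at hcon
        have := (pi_norm_le_iff_of_nonneg (by linarith : (0 : ℝ) ≤ R)).2
          (fun j => (by simpa using hcon j : ‖p.2 j‖ ≤ R))
        linarith
      have h0 : ∀ i, χ i p = 0 := by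
        intro i
        refine hχ0 i p j ?_
        have h1 := hRf (i, j) p.1 ht
        have h2 : Rf (i, j) ≤ R0 := hR0 ⟨_, rfl⟩
        have h3 := le_abs_self R0
        have h4 := abs_sub_abs_le_abs_sub (p.2 j) (c i j p.1)
        simp only at h1
        linarith
      simp [hP, hQ, h0]
    · simp [hP, hQ, hPi, hQi, hc0 _ ht, hL0 _ ht]
  have hU0 : ∀ p ∈ Kᶜ, curl2 P Q p = 0 := by
    intro p hp
    rw [curl2_congr hKc.isClosed.isOpen_compl (fun p hp => (hPQ p hp).1)
      (fun p hp => (hPQ p hp).2) hp, curl2_zero]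
  refine ⟨curl2 P Q, contDiff_pi.2 fun j => (curl2_good hPg hQg j).smooth,
    HasCompactSupport.intro hKc hU0, effective_of_good (curl2_good hPg hQg) R ?_,
    fun p hp => hU0 p fun h => hp h.1, curl2_div hPg hQg, ?_⟩
  · intro p hp
    refine hU0 p fun h => ?_
    have h1 : ‖p.1‖ ≤ R := by
      rw [Real.norm_eq_abs, abs_le]
      constructor <;> linarith [h.1.1, h.1.2]
    have h2 : ‖p.2‖ ≤ R := by simpa using h.2
    have : ‖p‖ ≤ R := by rw [Prod.norm_def]; exact max_le h1 h2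
    linarith
  · intro i t x hx
    set V : Set ST := {p | ∀ j, |p.2 j - c i j p.1| < w i j p.1} with hV
    have hVo : IsOpen V := by
      have : V = ⋂ j, {p : ST | |p.2 j - c i j p.1| < w i j p.1} := by
        ext p; simp [hV]
      rw [this]
      exact isOpen_iInter_of_finite fun j =>
        isOpen_lt (hy i j).smooth.continuous.abs (hw i j).smooth.continuous
    have hχV : ∀ p ∈ V, ∀ i', χ i' p = if i' = i then 1 else 0 := by
      intro p hp i'
      split_ifs with h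
      · subst h; exact hχ1 _ p hp
      · obtain ⟨j, hj⟩ := hsep p.1 i' i h
        refine hχ0 i' p j ?_
        have h1 := hp j
        have h2 : |c i' j p.1 - c i j p.1| ≤ |p.2 j - c i' j p.1| + |p.2 j - c i j p.1| := by
          have := abs_sub (p.2 j - c i j p.1) (p.2 j - c i' j p.1)
          have e : p.2 j - c i j p.1 - (p.2 j - c i' j p.1) = c i' j p.1 - c i j p.1 := by ring
          rw [e] at this
          linarith
        linarith
    have hPV : ∀ p ∈ V, P p = Pi' i p := by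
      intro p hp
      simp only [hP, hχV p hp]; simp
    have hQV : ∀ p ∈ V, Q p = Qi i p := by
      intro p hp
      simp only [hQ, hχV p hp]; simp
    rw [curl2_congr hVo hPV hQV (show (t, x) ∈ V from hx)]
    exact curl2_affine (c := c i) (v := fun j => deriv (c i j)) (L := L i) (hc i) (hv i) (hL i)
      (htr i) (t, x)

end Crest.Agent.H0170
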