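import Mathlib

/-! Primitive recursive arithmetic on `ℚ` for Mathlib's `Primcodable ℚ` instance. -/

set_option autoImplicit false
set_option linter.unusedVariables false

namespace Crest.Agent.H0170

open Encodable Denumerable

/-- the plain code of a rational -/
def e0 (q : ℚ) : ℕ := @encode ℚ Rat.instEncodable q

/-- the code used by `Primcodable ℚ` -/
def e1 (q : ℚ) : ℕ := @encode ℚ (Primcodable.toEncodable) q

def codeZ (z : ℤ) : ℕ := if 0 ≤ z then 2 * z.toNat else 2 * (-z).toNat - 1

lemma encode_int (z : ℤ) : (encode z : ℕ) = codeZ z := by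
  cases z with
  | ofNat n =>
    have : (encode (Int.ofNat n) : ℕ) = 2 * n := rfl
    rw [this]; simp [codeZ]
  | negSucc n =>
    have : (encode (Int.negSucc n) : ℕ) = 2 * n + 1 := rfl
    rw [this]
    unfold codeZ
    rw [if_neg (by simp)]
    simp; omega

lemma e0_eq (q : ℚ) : e0 q = Nat.pair (codeZ q.num) q.den := by
  rw [← encode_int]; rfl

lemma e0_inj : Function.Injective e0 := @encode_injective ℚ Rat.instEncodable

/-- valid plain codes -/
def Valid (m : ℕ) : Prop := 0 < m.unpair.2 ∧ Nat.gcd m.unpair.2 ((m.unpair.1 + 1) / 2) = 1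

instance : DecidablePred Valid := fun m => by unfold Valid; infer_instance

lemma codeZ_half (z : ℤ) : (codeZ z + 1) / 2 = z.natAbs := by
  unfold codeZ; split_ifs <;> omega

lemma codeZ_surj (u : ℕ) : ∃ z, codeZ z = u := by
  rcases Nat.even_or_odd' u with ⟨k, rfl | rfl⟩
  · exact ⟨k, by simp [codeZ]⟩
  · refine ⟨-((k : ℤ) + 1), ?_⟩
    unfold codeZ
    rw [if_neg (by omega)]
    omega

lemma valid_iff (m : ℕ) : Valid m ↔ m ∈ Set.range e0 := by
  constructor
  · rintro ⟨h1, h2⟩
    obtain ⟨z, hz⟩ := codeZ_surj m.unpair.1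
    rw [← hz, codeZ_half] at h2
    refine ⟨⟨z, m.unpair.2, h1.ne', ?_⟩, ?_⟩
    · rw [Nat.Coprime, Nat.gcd_comm]; exact h2
    · rw [e0_eq]; simp [hz]
  · rintro ⟨q, rfl⟩
    rw [e0_eq]
    refine ⟨by simpa using q.den_pos, ?_⟩
    simp only [Nat.unpair_pair, codeZ_half]
    rw [Nat.gcd_comm]; exact q.reduced

lemma valid_infinite : (Set.ofPred Valid).Infinite := by
  have : Set.ofPred Valid = Set.range e0 := by ext m; exact valid_iff m
  rw [this]
  exact Set.infinite_range_of_injective e0_inj

lemma e0_ofNat (n : ℕ) : e0 (ofNat ℚ n) = Nat.nth Valid n := by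
  have hS : Set.ofPred Valid = Set.range e0 := by ext m; exact valid_iff m
  let := @decidableRangeEncode ℚ Rat.instEncodable
  let hinf : Infinite (Set.range (@encode ℚ Rat.instEncodable)) :=
    Infinite.of_injective _ (Equiv.ofInjective _ (@encode_injective ℚ Rat.instEncodable)).injective
  let := Nat.Subtype.denumerable (Set.range (@encode ℚ Rat.instEncodable))
  have h1 : ofNat ℚ n = (@equivRangeEncode ℚ Rat.instEncodable).symm
      (ofNat (Set.range (@encode ℚ Rat.instEncodable)) n) :=
    @Denumerable.ofEquiv_ofNat _ _ _ (@equivRangeEncode ℚ Rat.instEncodable) n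
  have h2 : ofNat (Set.range (@encode ℚ Rat.instEncodable)) n
      = Nat.Subtype.ofNat (Set.range (@encode ℚ Rat.instEncodable)) n := by
    exact (@Denumerable.ofEquiv_ofNat _ _ _ _ n).trans rfl
  have h3 : ∀ s : Set.range (@encode ℚ Rat.instEncodable),
      e0 ((@equivRangeEncode ℚ Rat.instEncodable).symm s) = s := by
    intro s
    have := (@equivRangeEncode ℚ Rat.instEncodable).apply_symm_apply s
    exact congrArg Subtype.val this
  rw [h1, h3, h2, Nat.nth_apply_eq_orderIsoOfNat valid_infinite]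
  have key : ∀ (s t : Set ℕ) (hs : Infinite s) (ht : Infinite t) [DecidablePred (· ∈ t)], s = t →
      ((@Nat.Subtype.orderIsoOfNat s hs n : s) : ℕ) = (Nat.Subtype.ofNat t n : ℕ) := by
    intro s t hs ht _ hst
    subst hst
    rw [Nat.Subtype.orderIsoOfNat_apply]
  exact (key _ _ _ hinf hS).symm

lemma ofNat_e1 (q : ℚ) : ofNat ℚ (e1 q) = q := Denumerable.ofNat_encode q

lemma e0_eq_nth (q : ℚ) : e0 q = Nat.nth Valid (e1 q) := by
  rw [← e0_ofNat, ofNat_e1]

lemma e1_eq_count (q : ℚ) : e1 q = Nat.count Valid (e0 q) := by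
  rw [e0_eq_nth, Nat.count_nth_of_infinite valid_infinite]

lemma primrec_dvd : PrimrecRel (fun a b : ℕ => a ∣ b) := by
  have : PrimrecRel (fun a b : ℕ => b % a = 0) :=
    Primrec.eq.comp₂ (Primrec.nat_mod.comp₂ Primrec₂.right Primrec₂.left) (Primrec₂.const 0)
  exact this.of_eq fun a b => (Nat.dvd_iff_mod_eq_zero ..).symm

lemma primrec_gcd : Primrec₂ Nat.gcd := by
  have h : Primrec fun x : ℕ × ℕ => (x.1 + x.2).findGreatest (fun k => k ∣ x.1 ∧ k ∣ x.2) := by
    refine Primrec.nat_findGreatest (p := fun (x : ℕ × ℕ) k => k ∣ x.1 ∧ k ∣ x.2)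
      (Primrec.nat_add.comp Primrec.fst Primrec.snd) ?_
    exact PrimrecPred.and (primrec_dvd.comp Primrec.snd (Primrec.fst.comp Primrec.fst))
      (primrec_dvd.comp Primrec.snd (Primrec.snd.comp Primrec.fst))
  refine h.of_eq fun x => ?_
  obtain ⟨a, b⟩ := x
  simp only
  rcases Nat.eq_zero_or_pos (a + b) with h0 | h0
  · have ha : a = 0 := by omega
    have hb : b = 0 := by omega
    subst ha hb; simp
  · have hg : 0 < Nat.gcd a b := Nat.gcd_pos_iff.2 (by omega)
    rw [Nat.findGreatest_eq_iff]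
    refine ⟨?_, fun _ => ⟨Nat.gcd_dvd_left _ _, Nat.gcd_dvd_right _ _⟩, ?_⟩
    · exact Nat.le_of_dvd h0 (Dvd.dvd.add (Nat.gcd_dvd_left _ _) (Nat.gcd_dvd_right _ _))
    · rintro n hn - ⟨h1, h2⟩
      exact absurd (Nat.le_of_dvd hg (Nat.dvd_gcd h1 h2)) (by omega)

lemma primrec_valid : PrimrecPred Valid := by
  unfold Valid
  refine PrimrecPred.and (Primrec.nat_lt.comp (Primrec.const 0) (Primrec.snd.comp Primrec.unpair)) ?_
  refine Primrec.eq.comp (primrec_gcd.comp (Primrec.snd.comp Primrec.unpair) ?_) (Primrec.const 1)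
  exact Primrec.nat_div.comp (Primrec.succ.comp (Primrec.fst.comp Primrec.unpair)) (Primrec.const 2)

lemma primrec_count : Primrec (Nat.count Valid) := by
  have h : Primrec (Nat.rec (motive := fun _ => ℕ) 0
      (fun n ih => ih + if Valid n then 1 else 0)) := by
    refine Primrec.nat_rec₁ 0 ?_
    exact Primrec.nat_add.comp₂ Primrec₂.right
      ((Primrec.ite (primrec_valid.comp Primrec.fst) (Primrec.const 1) (Primrec.const 0)).to₂)
  refine h.of_eq fun n => ?_
  induction n with
  | zero => simp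
  | succ n ih => rw [Nat.count_succ, ← ih]

lemma valid_pair (n : ℕ) : Valid (Nat.pair (2 * n) 1) := by simp [Valid]

lemma lt_count (n : ℕ) : n < Nat.count Valid (Nat.pair (2 * n) 1 + 1) := by
  induction n with
  | zero => rw [Nat.count_succ, if_pos (valid_pair 0)]; omega
  | succ n ih =>
    rw [Nat.count_succ, if_pos (valid_pair _)]
    have h1 : Nat.pair (2 * n) 1 + 1 ≤ Nat.pair (2 * (n + 1)) 1 :=
      Nat.pair_lt_pair_left 1 (by omega)
    have := Nat.count_monotone Valid h1
    omega

lemma primrec_nth : Primrec (Nat.nth Valid) := by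
  refine Primrec.of_graph ⟨fun n => Nat.pair (2 * n) 1,
    Primrec₂.natPair.comp Primrec.nat_double (Primrec.const 1), fun n => ?_⟩ ?_
  · have := Nat.nth_lt_of_lt_count (lt_count n)
    exact Nat.lt_succ_iff.1 this
  · have : PrimrecRel fun a b : ℕ => Valid b ∧ Nat.count Valid b = a :=
      PrimrecPred.and (primrec_valid.comp Primrec.snd)
        (Primrec.eq.comp (primrec_count.comp Primrec.snd) Primrec.fst)
    refine this.of_eq fun a b => ⟨?_, ?_⟩
    · rintro ⟨h1, rfl⟩; exact Nat.nth_count h1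
    · rintro rfl
      exact ⟨Nat.nth_mem_of_infinite valid_infinite a, Nat.count_nth_of_infinite valid_infinite a⟩

lemma primrec_e0 : Primrec e0 :=
  (primrec_nth.comp Primrec.encode).of_eq fun q => (e0_eq_nth q).symm

lemma primrec_of_e0 {α : Type} [Primcodable α] {f : α → ℚ} (h : Primrec fun a => e0 (f a)) :
    Primrec f :=
  Primrec.encode_iff.1 ((primrec_count.comp h).of_eq fun a => (e1_eq_count (f a)).symm)

/-- positive part of the numerator -/
def np (q : ℚ) : ℕ := q.num.toNat
/-- negative part of the numerator -/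
def nn (q : ℚ) : ℕ := (-q.num).toNat

lemma primrec_den : Primrec (fun q : ℚ => q.den) :=
  (Primrec.snd.comp (Primrec.unpair.comp primrec_e0)).of_eq fun q => by simp [e0_eq]

lemma primrec_codeZ_num : Primrec (fun q : ℚ => codeZ q.num) :=
  (Primrec.fst.comp (Primrec.unpair.comp primrec_e0)).of_eq fun q => by simp [e0_eq]

lemma primrec_np : Primrec np := by
  have h : Primrec fun q : ℚ => if codeZ q.num % 2 = 0 then codeZ q.num / 2 else 0 :=
    Primrec.ite (Primrec.eq.comp (Primrec.nat_mod.comp primrec_codeZ_num (Primrec.const 2))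
      (Primrec.const 0)) (Primrec.nat_div.comp primrec_codeZ_num (Primrec.const 2))
      (Primrec.const 0)
  refine h.of_eq fun q => ?_
  unfold np codeZ
  split_ifs <;> omega

lemma primrec_nn : Primrec nn := by
  have h : Primrec fun q : ℚ => if codeZ q.num % 2 = 0 then 0 else (codeZ q.num + 1) / 2 :=
    Primrec.ite (Primrec.eq.comp (Primrec.nat_mod.comp primrec_codeZ_num (Primrec.const 2))
      (Primrec.const 0)) (Primrec.const 0)
      (Primrec.nat_div.comp (Primrec.succ.comp primrec_codeZ_num) (Primrec.const 2))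
  refine h.of_eq fun q => ?_
  unfold nn codeZ
  split_ifs <;> omega

/-- the rational `(a - b) / c` -/
def mk3 (a b c : ℕ) : ℚ := ((a : ℚ) - b) / c

lemma mk3_eq (a b c : ℕ) : mk3 a b c = mkRat ((a : ℤ) - b) c := by
  rw [Rat.mkRat_eq_div, mk3]; push_cast; rfl

lemma e0_mk3 (a b c : ℕ) : e0 (mk3 a b c) = if c = 0 then Nat.pair 0 1 else
    Nat.pair (if b ≤ a then 2 * ((a - b) / Nat.gcd c ((a - b) + (b - a)))
      else 2 * ((b - a) / Nat.gcd c ((a - b) + (b - a))) - 1) (c / Nat.gcd c ((a - b) + (b - a))) := by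
  rw [e0_eq, mk3_eq, Rat.num_mkRat, Rat.den_mkRat]
  have habs : ((a : ℤ) - b).natAbs = (a - b) + (b - a) := by omega
  rw [habs]
  by_cases hc : c = 0
  · simp [hc, codeZ]
  · rw [if_neg hc, if_neg hc, if_neg hc]
    congr 1
    set g := Nat.gcd c ((a - b) + (b - a)) with hg
    have hgpos : 0 < g := Nat.gcd_pos_of_pos_left _ (Nat.pos_of_ne_zero hc)
    have hdvd : g ∣ (a - b) + (b - a) := Nat.gcd_dvd_right _ _
    by_cases hab : b ≤ a
    · rw [if_pos hab]
      have : ((a : ℤ) - b) = ((a - b : ℕ) : ℤ) := by omega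
      rw [this, ← Int.natCast_div]
      unfold codeZ
      rw [if_pos (Int.natCast_nonneg _), Int.toNat_natCast]
    · rw [if_neg hab]
      have h0 : a - b = 0 := by omega
      rw [h0, zero_add] at hdvd
      obtain ⟨k, hk⟩ := hdvd
      have h1 : ((a : ℤ) - b) = (g : ℤ) * (-(k : ℤ)) := by
        have : ((b - a : ℕ) : ℤ) = (g : ℤ) * k := by exact_mod_cast hk
        have h2 : ((a : ℤ) - b) = -((b - a : ℕ) : ℤ) := by omega
        rw [h2, this]; ring
      rw [h1, Int.mul_ediv_cancel_left _ (by exact_mod_cast hgpos.ne'), hk,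
        Nat.mul_div_cancel_left _ hgpos]
      have hkpos : 0 < k := by
        rcases Nat.eq_zero_or_pos k with h | h
        · subst h; omega
        · exact h
      unfold codeZ
      rw [if_neg (by omega)]
      omega

lemma primrec_mk3 {α : Type} [Primcodable α] {a b c : α → ℕ} (ha : Primrec a) (hb : Primrec b)
    (hc : Primrec c) : Primrec fun x => mk3 (a x) (b x) (c x) := by
  apply primrec_of_e0
  simp only [e0_mk3]
  have hab := Primrec.nat_sub.comp ha hb
  have hba := Primrec.nat_sub.comp hb ha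
  have hg := primrec_gcd.comp hc (Primrec.nat_add.comp hab hba)
  refine Primrec.ite (Primrec.eq.comp hc (Primrec.const 0)) (Primrec.const _) ?_
  refine Primrec₂.natPair.comp ?_ (Primrec.nat_div.comp hc hg)
  refine Primrec.ite (Primrec.nat_le.comp hb ha) ?_ ?_
  · exact Primrec.nat_double.comp (Primrec.nat_div.comp hab hg)
  · exact Primrec.nat_sub.comp (Primrec.nat_double.comp (Primrec.nat_div.comp hba hg))
      (Primrec.const 1)

lemma np_sub_nn (q : ℚ) : (np q : ℚ) - nn q = q.num := by
  have : ((np q : ℕ) : ℤ) - (nn q : ℕ) = q.num := by unfold np nn; omega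
  exact_mod_cast this

lemma np_sub_nn' (q : ℚ) : (np q : ℚ) = q * q.den + nn q := by
  have h := np_sub_nn q
  have h2 : q * q.den = q.num := Rat.mul_den_eq_num q
  linarith

lemma den_ne (q : ℚ) : (q.den : ℚ) ≠ 0 := by exact_mod_cast q.den_nz

section ops
variable {α : Type} [Primcodable α] {f g : α → ℚ}

lemma primrec_add (hf : Primrec f) (hg : Primrec g) : Primrec fun a => f a + g a := by
  have h := primrec_mk3
    (Primrec.nat_add.comp (Primrec.nat_mul.comp (primrec_np.comp hf) (primrec_den.comp hg))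
      (Primrec.nat_mul.comp (primrec_np.comp hg) (primrec_den.comp hf)))
    (Primrec.nat_add.comp (Primrec.nat_mul.comp (primrec_nn.comp hf) (primrec_den.comp hg))
      (Primrec.nat_mul.comp (primrec_nn.comp hg) (primrec_den.comp hf)))
    (Primrec.nat_mul.comp (primrec_den.comp hf) (primrec_den.comp hg))
  refine h.of_eq fun a => ?_
  have h1 := den_ne (f a)
  have h2 := den_ne (g a)
  simp only [mk3]; push_cast
  rw [np_sub_nn', np_sub_nn']
  field_simp; ring

lemma primrec_mul (hf : Primrec f) (hg : Primrec g) : Primrec fun a => f a * g a := by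
  have h := primrec_mk3
    (Primrec.nat_add.comp (Primrec.nat_mul.comp (primrec_np.comp hf) (primrec_np.comp hg))
      (Primrec.nat_mul.comp (primrec_nn.comp hf) (primrec_nn.comp hg)))
    (Primrec.nat_add.comp (Primrec.nat_mul.comp (primrec_np.comp hf) (primrec_nn.comp hg))
      (Primrec.nat_mul.comp (primrec_nn.comp hf) (primrec_np.comp hg)))
    (Primrec.nat_mul.comp (primrec_den.comp hf) (primrec_den.comp hg))
  refine h.of_eq fun a => ?_
  have h1 := den_ne (f a)
  have h2 := den_ne (g a)
  simp only [mk3]; push_cast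
  rw [np_sub_nn', np_sub_nn']
  field_simp; ring

lemma primrec_neg (hf : Primrec f) : Primrec fun a => - f a := by
  have h := primrec_mk3 (primrec_nn.comp hf) (primrec_np.comp hf) (primrec_den.comp hf)
  refine h.of_eq fun a => ?_
  have h1 := den_ne (f a)
  simp only [mk3]
  rw [np_sub_nn']
  field_simp; ring

lemma primrec_sub (hf : Primrec f) (hg : Primrec g) : Primrec fun a => f a - g a :=
  (primrec_add hf (primrec_neg hg)).of_eq fun a => (sub_eq_add_neg _ _).symm

lemma primrec_natCast {k : α → ℕ} (hk : Primrec k) : Primrec fun a => (k a : ℚ) :=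
  (primrec_mk3 hk (Primrec.const 0) (Primrec.const 1)).of_eq fun a => by simp [mk3]

lemma np_add_nn (q : ℚ) : np q + nn q = q.num.natAbs := by unfold np nn; omega

lemma primrec_natAbs (hf : Primrec f) : Primrec fun a => (f a).num.natAbs :=
  (Primrec.nat_add.comp (primrec_np.comp hf) (primrec_nn.comp hf)).of_eq fun a => np_add_nn _

lemma primrec_inv (hf : Primrec f) : Primrec fun a => (f a)⁻¹ := by
  have h := primrec_mk3
    (Primrec.nat_mul.comp (primrec_den.comp hf) (primrec_np.comp hf))
    (Primrec.nat_mul.comp (primrec_den.comp hf) (primrec_nn.comp hf))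
    (Primrec.nat_mul.comp (primrec_natAbs hf) (primrec_natAbs hf))
  refine h.of_eq fun a => ?_
  have h1 := den_ne (f a)
  simp only [mk3]; push_cast
  rw [← mul_sub, np_sub_nn]
  have h3 : (((f a).num.natAbs : ℕ) : ℚ) * (((f a).num.natAbs : ℕ) : ℚ)
      = ((f a).num : ℚ) * ((f a).num : ℚ) := by
    have : (((f a).num.natAbs : ℕ) : ℤ) * (((f a).num.natAbs : ℕ) : ℤ) = (f a).num * (f a).num :=
      Int.natAbs_mul_self' _
    have h4 := congrArg (Int.cast : ℤ → ℚ) this
    simpa only [Int.cast_mul, Int.cast_natCast] using h4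
  rw [h3]
  have h2 : ((f a).num : ℚ) = f a * (f a).den := (Rat.mul_den_eq_num _).symm
  rw [h2]
  by_cases h0 : f a = 0
  · simp [h0]
  · field_simp

lemma primrec_div (hf : Primrec f) (hg : Primrec g) : Primrec fun a => f a / g a :=
  (primrec_mul hf (primrec_inv hg)).of_eq fun a => (div_eq_mul_inv _ _).symm

lemma primrec_pos (hf : Primrec f) : PrimrecPred fun a => 0 < f a := by
  refine (Primrec.nat_lt.comp (Primrec.const 0) (primrec_np.comp hf)).of_eq fun a => ?_
  rw [← Rat.num_pos]; unfold np; omega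

lemma primrec_pow {k : α → ℕ} (hf : Primrec f) (hk : Primrec k) : Primrec fun a => f a ^ k a := by
  have h := Primrec.nat_rec' (f := k) (g := fun _ => (1 : ℚ))
    (h := fun a (p : ℕ × ℚ) => p.2 * f a) hk (Primrec.const 1)
    (primrec_mul (Primrec.snd.comp Primrec.snd) (hf.comp Primrec.fst)).to₂
  refine h.of_eq fun a => ?_
  induction k a with
  | zero => simp
  | succ n ih => rw [pow_succ, ← ih]

lemma primrec_natPow {k l : α → ℕ} (hk : Primrec k) (hl : Primrec l) :
    Primrec fun a => k a ^ l a :=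
  (Primrec₂.unpaired'.1 Nat.Primrec.pow).comp hk hl

end ops

lemma abs_le_natAbs (q : ℚ) : |(q : ℝ)| ≤ (q.num.natAbs : ℝ) := by
  have h1 : (q : ℝ) = (q.num : ℝ) / q.den := by exact_mod_cast (Rat.num_div_den q).symm
  have h2 : (1 : ℝ) ≤ q.den := by exact_mod_cast q.den_pos
  rw [h1, abs_div, abs_of_nonneg (by linarith : (0 : ℝ) ≤ q.den), Nat.cast_natAbs]
  push_cast
  exact div_le_self (abs_nonneg _) h2

end Crest.Agent.H0170
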